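import Crest.Agent.N336.P.CL.Run

/-!
# Row 336, compression lemma (helper52): `Crest.Agent.N336.P.cl : CLStmt`
-/

set_option autoImplicit false
set_option linter.unusedSectionVars false

open Matrix Finset
open scoped ComplexOrder MatrixOrder Matrix.Norms.L2Operator

namespace Crest.Agent.N336.CL

open Crest.MathPhysics.LatticeSpin P

variable {R Pa Λ : Type} [Fintype R] [DecidableEq R] [Fintype Pa] [DecidableEq Pa] [Fintype Λ]
  [DecidableEq Λ] {q : ℕ} {W : ℕ → Type} [∀ t, Fintype (W t)] [∀ t, Nonempty (W t)]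
  {g : ℕ → Gate R Pa q} {own : ℕ → R → Pa} {n B ℓ : ℕ} {δ : ℝ}
  {T : ∀ t, W t → Fin (g t).nb → Op R q} {ψ₀ : (R → Fin q) → ℂ}

/-- hypotheses on the sampled network -/
structure Hyp (g : ℕ → Gate R Pa q) (own : ℕ → R → Pa) (n B ℓ : ℕ) (δ : ℝ)
    (T : ∀ t, W t → Fin (g t).nb → Op R q) : Prop where
  valid : ∀ t < n, (g t).Valid B ℓ (own t) (own (t + 1))
  ne : ∀ t < n, (g t).I.Nonempty
  hsb : ∀ t < n, ∀ β, HSB δ fun w => T t w β - opOf ((g t).br β)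
  supp : ∀ t < n, ∀ w β, Sp (Own (own t) (g t).I) (T t w β)

/-- the gates of the `S`-term -/
noncomputable abbrev dv (T : ∀ t, W t → Fin (g t).nb → Op R q) (S : Finset ℕ) :
    ∀ t, W t → Op R q := dev (fun t v => ∑ β, T t v β) (fun t => (g t).op) S

lemma U_run (y₀ : R → Fin q) (h : Hyp g own n B ℓ δ T) (hψ : nsq ψ₀ ≤ 1) {S : Finset ℕ}
    {Inv : Finset Pa} (hS : ∀ t ∈ S, (g t).I ⊆ Inv) : ∀ t ≤ n,
    UU (Own (own t) Inv)ᶜ (rho (dv T S) ψ₀ t)
      (((B : ℝ) ^ 2) ^ #((range t).filter fun t' => ¬ Disjoint (g t').I Inv) *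
        δ ^ #((range t).filter (· ∈ S)))
  | 0, _ => by rw [rho_zero]; simpa using U.base _ hψ
  | t + 1, ht => by
    have ih := U_run y₀ h hψ hS t (Nat.le_of_succ_le ht)
    have hc : ∀ (p : ℕ → Prop) [DecidablePred p], #((range (t + 1)).filter p) =
        if p t then #((range t).filter p) + 1 else #((range t).filter p) := by
      intro p _
      rw [range_add_one, filter_insert]
      split_ifs
      · rw [card_insert_of_notMem (by simp)]
      · rfl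
    rw [rho_succ, hc, hc]
    by_cases h1 : t ∈ S
    · have h2 : ¬ Disjoint (g t).I Inv := fun h2 =>
        (h.ne t ht).ne_empty (disjoint_self.1 (h2.mono_right (hS t h1)))
      simp only [dev, if_pos h1, if_pos h2]
      refine (U_gate_dev (h.valid t ht) (hS t h1) (rho_psd _ _ _) ih (h.hsb t ht)
        (h.supp t ht)).mono (le_of_eq ?_)
      ring
    · simp only [dev, if_neg h1, av_const]
      by_cases h2 : Disjoint (g t).I Inv
      · rw [if_neg (not_not.2 h2)]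
        exact U_gate_out (h.valid t ht) h2 ih
      · rw [if_pos h2]
        exact (U_gate_meet y₀ (h.valid t ht) (rho_psd _ _ _) ih).mono (le_of_eq (by ring))

/-- a vector as a matrix junk × output -/
noncomputable def mt (e : Λ ↪ R) (ψ : (R → Fin q) → ℂ) :
    Matrix (Q.Rest (Q.rg e) fun _ => Fin q) (Λ → Fin q) ℂ :=
  Matrix.of fun j s => ψ (gl (d := fun _ => Fin q) e s j)

lemma mt_sum {α : Type*} (e : Λ ↪ R) (s : Finset α) (ψ : α → (R → Fin q) → ℂ) :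
    mt e (∑ a ∈ s, ψ a) = ∑ a ∈ s, mt e (ψ a) := by
  ext j s; simp [mt, Matrix.sum_apply]

lemma fro_mt (e : Λ ↪ R) (ψ : Vec R q) : fro (mt e ψ.ofLp) = ‖ψ‖ := by
  refine (pow_left_inj₀ (fro_nonneg _) (norm_nonneg _) two_ne_zero).1 ?_
  rw [fro_sq, ← nsq_eq, nsq, sum_cfg (d := fun _ => Fin q) e, sum_comm]; rfl

lemma av_mt {V : Type} [Fintype V] (e : Λ ↪ R) (ψ : V → (R → Fin q) → ℂ) :
    (av fun w => mt e (ψ w) * (mt e (ψ w))ᴴ) =
      pt (d := fun _ => Fin q) e (av fun w => vecMulVec (ψ w) (star (ψ w))) := by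
  ext j j'
  simp only [pt_apply, av_apply, ← av_sum, mul_apply]
  rfl

lemma pt_run (y₀ : R → Fin q) (h : Hyp g own n B ℓ δ T) (hψ : nsq ψ₀ ≤ 1) (hδ : 0 ≤ δ)
    {κ D m : ℕ} (e : Λ ↪ R) {fin : Λ → Pa} (he : ∀ z, own n (e z) = fin z)
    (hκ : ∀ p, #((range n).filter fun t => p ∈ (g t).I) ≤ κ)
    (hD : ∀ p, q ^ #(univ.filter fun z => fin z = p) ≤ D) (hD1 : 1 ≤ D) (hB : 1 ≤ B)
    {S : Finset ℕ} (hSn : S ⊆ range n) {Inv : Finset Pa} (hS : ∀ t ∈ S, (g t).I ⊆ Inv)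
    (hm : #Inv ≤ κ * m) :
    fro (pt (d := fun _ => Fin q) e (rho (dv T S) ψ₀ n)) ≤
      ((B : ℝ) ^ (2 * κ ^ 2) * (D : ℝ) ^ κ) ^ m * δ ^ #S := by
  have h1 := @U.pt' R Λ _ _ _ _ (fun _ => Fin q) _ _ _ _ _ (fun x => ⟨y₀ x⟩) e
    (U_run y₀ h hψ hS n le_rfl) ((univ.filter fun z => fin z ∈ Inv).map e)
    (map_subset_map.2 (subset_univ _)) fun r hr => by
      obtain ⟨z, rfl⟩ := Q.mem_rg.1 hr
      by_cases hz : fin z ∈ Inv <;> simp [Own, he, hz]
  have h2 : Q.dim (fun _ : R => Fin q) ((univ.filter fun z => fin z ∈ Inv).map e) ≤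
      D ^ (κ * m) := by
    rw [Q.dim_const, card_map, Fintype.card_fin, card_eq_sum_card_fiberwise (f := fin) (t := Inv)
      (s := univ.filter fun z => fin z ∈ Inv) (fun z hz => (mem_filter.1 hz).2),
      ← prod_pow_eq_pow_sum]
    refine (prod_le_pow_card _ _ D fun p hp => le_trans (le_of_eq ?_) (hD p)).trans
      (Nat.pow_le_pow_right hD1 hm)
    congr 2; ext z
    simp only [mem_filter, mem_univ, true_and, and_iff_right_iff_imp]
    rintro rfl; exact hp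
  have h3 : #((range n).filter fun t' => ¬ Disjoint (g t').I Inv) ≤ κ ^ 2 * m := by
    calc _ ≤ #(Inv.biUnion fun p => (range n).filter fun t => p ∈ (g t).I) := by
          refine card_le_card fun t ht => ?_
          obtain ⟨p, h4, h5⟩ := not_disjoint_iff.1 (mem_filter.1 ht).2
          exact mem_biUnion.2 ⟨p, h5, mem_filter.2 ⟨(mem_filter.1 ht).1, h4⟩⟩
      _ ≤ #Inv * κ := card_biUnion_le_card_mul _ _ _ fun p _ => hκ p
      _ ≤ κ ^ 2 * m := (Nat.mul_le_mul_right _ hm).trans (le_of_eq (by ring))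
  have h4 : (range n).filter (· ∈ S) = S := by
    ext t; simp only [mem_filter, and_iff_right_iff_imp]; exact fun ht => hSn ht
  have h5 : (1 : ℝ) ≤ (B : ℝ) ^ 2 := one_le_pow₀ (by exact_mod_cast hB)
  rw [h4] at h1
  refine h1.trans ?_
  calc _ ≤ (D : ℝ) ^ (κ * m) * (((B : ℝ) ^ 2) ^ (κ ^ 2 * m) * δ ^ #S) := by
        gcongr
        exact_mod_cast h2
    _ = _ := by rw [mul_pow, ← pow_mul, ← pow_mul, ← pow_mul, mul_assoc 2]; ring

lemma term_le (y₀ : R → Fin q) (h : Hyp g own n B ℓ δ T) (hψ : nsq ψ₀ ≤ 1) (hδ : 0 ≤ δ)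
    {κ D : ℕ} (e : Λ ↪ R) {fin : Λ → Pa} (he : ∀ z, own n (e z) = fin z)
    (hκ' : ∀ t < n, #(g t).I ≤ κ) (hκ : ∀ p, #((range n).filter fun t => p ∈ (g t).I) ≤ κ)
    (hD : ∀ p, q ^ #(univ.filter fun z => fin z = p) ≤ D) (hD1 : 1 ≤ D) (hB : 1 ≤ B)
    {S S' : Finset ℕ} (hS : S ⊆ range n) (hS' : S' ⊆ range n) :
    (av fun w : Om W n × Om W n =>
      fro ((mt e (tr (dv T S') ψ₀ n w.2))ᴴ * mt e (tr (dv T S) ψ₀ n w.1))) ≤
      ((B : ℝ) ^ (2 * κ ^ 2) * (D : ℝ) ^ κ * √δ) ^ #S *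
        ((B : ℝ) ^ (2 * κ ^ 2) * (D : ℝ) ^ κ * √δ) ^ #S' := by
  have hm : #((S ∪ S').biUnion fun t => (g t).I) ≤ κ * (#S + #S') :=
    (card_biUnion_le_card_mul _ _ κ fun t ht => hκ' t (mem_range.1 (union_subset hS hS' ht))).trans
      (by rw [mul_comm]; exact Nat.mul_le_mul_left _ (card_union_le _ _))
  have h1 := pt_run y₀ h hψ hδ e he hκ hD hD1 hB hS
    (fun t ht => subset_biUnion_of_mem (fun t => (g t).I) (mem_union_left _ ht)) hm
  have h2 := pt_run y₀ h hψ hδ e he hκ hD hD1 hB hS'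
    (fun t ht => subset_biUnion_of_mem (fun t => (g t).I) (mem_union_right _ ht)) hm
  refine (av_le_sqrt _).trans (Real.sqrt_le_iff.2 ⟨by positivity, ?_⟩)
  refine (second_moment (fun w => mt e (tr (dv T S) ψ₀ n w))
    fun w => mt e (tr (dv T S') ψ₀ n w)).trans ?_
  rw [av_mt, av_mt]
  refine (mul_le_mul h1 h2 (fro_nonneg _) (by positivity)).trans (le_of_eq ?_)
  conv_lhs => rw [← Real.sq_sqrt hδ]
  ring

lemma tr_empty (T : ∀ t, W t → Fin (g t).nb → Op R q) (ψ₀ : Vec R q) :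
    ∀ t w, tr (dv T ∅) ψ₀.ofLp t w = (run g ψ₀ t).ofLp
  | 0, _ => rfl
  | t + 1, w => by rw [tr, tr_empty T ψ₀ t]; rfl

lemma exists_sample (y₀ : R → Fin q) (h : Hyp g own n B ℓ δ T) {ψ₀ : Vec R q} (hψ : ‖ψ₀‖ ≤ 1)
    (hδ : 0 ≤ δ) {κ D : ℕ} (e : Λ ↪ R) {fin : Λ → Pa} (he : ∀ z, own n (e z) = fin z)
    (hκ' : ∀ t < n, #(g t).I ≤ κ) (hκ : ∀ p, #((range n).filter fun t => p ∈ (g t).I) ≤ κ)
    (hD : ∀ p, q ^ #(univ.filter fun z => fin z = p) ≤ D) {ε : ℝ} (hε : ε ≤ 1 / 4)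
    (hx : n * ((B : ℝ) ^ (2 * κ ^ 2) * (D : ℝ) ^ κ * √δ) ≤ ε) :
    ∃ w w' : Om W n, fro ((mt e (tr (fun t v => ∑ β, T t v β) ψ₀.ofLp n w'))ᴴ *
      mt e (tr (fun t v => ∑ β, T t v β) ψ₀.ofLp n w) -
      (mt e (run g ψ₀ n).ofLp)ᴴ * mt e (run g ψ₀ n).ofLp) ≤ 4 * ε := by
  set x := (B : ℝ) ^ (2 * κ ^ 2) * (D : ℝ) ^ κ * √δ with hxd
  have hx0 : 0 ≤ x := by positivity
  have hψ' : nsq ψ₀.ofLp ≤ 1 := by rw [nsq_eq]; exact pow_le_one₀ (norm_nonneg _) hψ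
  let P := (range n).powerset ×ˢ (range n).powerset
  have hP : ((∅ : Finset ℕ), (∅ : Finset ℕ)) ∈ P := by simp [P]
  let Y : Finset ℕ × Finset ℕ → Om W n × Om W n → Op Λ q := fun S w =>
    (mt e (tr (dv T S.2) ψ₀.ofLp n w.2))ᴴ * mt e (tr (dv T S.1) ψ₀.ofLp n w.1)
  obtain ⟨w, hw⟩ := exists_le_av fun w => fro (∑ S ∈ P.erase (∅, ∅), Y S w)
  refine ⟨w.1, w.2, le_trans (le_of_eq (congrArg fro ?_)) (hw.trans ?_)⟩
  · rw [sum_erase_eq_sub hP, tr_expand _ (fun t => (g t).op), tr_expand _ (fun t => (g t).op),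
      mt_sum, mt_sum, conjTranspose_sum, Matrix.mul_sum, sum_product]
    simp only [Y, tr_empty, Matrix.sum_mul]
  · refine (av_mono fun w => fro_sum_le _ _).trans ?_
    rw [av_sum]
    refine (sum_le_sum (g := fun S => x ^ #S.1 * x ^ #S.2) fun S hS => ?_).trans ?_
    · obtain ⟨h1, h2⟩ := mem_erase.1 hS
      obtain ⟨h2, h3⟩ := mem_product.1 h2
      have hn : 0 < n := Nat.pos_of_ne_zero fun hn => h1 (by
        subst hn; simp only [range_zero, powerset_empty, mem_singleton] at h2 h3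
        exact Prod.ext h2 h3)
      obtain ⟨p, -⟩ := h.ne 0 hn
      refine term_le y₀ h hψ' hδ e he hκ' hκ hD (le_trans ?_ (hD p))
        ((h.valid 0 hn).1.trans (h.valid 0 hn).2.1) (mem_powerset.1 h2) (mem_powerset.1 h3)
      rcases (univ.filter fun z => fin z = p).eq_empty_or_nonempty with h4 | ⟨z, -⟩
      · simp [h4]
      · exact Nat.one_le_pow _ _ (y₀ (e z)).pos
    · have h1 : ∑ S ∈ (range n).powerset, x ^ #S = (1 + x) ^ n := by
        have := prod_one_add (f := fun _ => x) (range n)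
        simpa only [prod_const, card_range] using this.symm
      rw [sum_erase_eq_sub hP, sum_product' _ _ fun S S' : Finset ℕ => x ^ #S * x ^ #S',
        ← sum_mul_sum, h1, ← pow_add]
      have := one_add_pow_le hx0 (n + n) (by push_cast; linarith)
      push_cast at this
      simp only [card_empty, pow_zero, mul_one]
      linarith

lemma partyForm_tr {V : ℕ} {I : ℕ → Finset Pa} {G : ∀ t, W t → Op R q}
    (h0 : PartyForm 0 V (own 0) I ψ₀)
    (h : ∀ t < n, ∀ w, SL V (own t) (own (t + 1)) (I t) (G t w)) :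
    ∀ t ≤ n, ∀ w, PartyForm t V (own t) I (tr G ψ₀ t w)
  | 0, _, _ => h0
  | t + 1, ht, w => partyForm_step (partyForm_tr h0 h t (Nat.le_of_succ_le ht) w.1) (h t ht w.2)

lemma mt_tgt (y₀ : R → Fin q) (e : Λ ↪ R) {φ : Vec Λ q} (hφ : ‖φ‖ = 1) {tgt : Vec R q}
    (htgt : ‖tgt‖ = 1) {jv : (R → Fin q) → ℂ}
    (hj1 : ∀ σ σ', (∀ r, r ∉ Set.range e → σ r = σ' r) → jv σ = jv σ')
    (hj2 : ∀ σ, tgt σ = φ (fun z => σ (e z)) * jv σ) :
    (mt e tgt.ofLp)ᴴ * mt e tgt.ofLp = vecMulVec (star φ.ofLp) φ.ofLp := by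
  obtain ⟨v, e1⟩ : ∃ v : (Q.Rest (Q.rg e) fun _ => Fin q) → ℂ,
      ∀ s j, mt e tgt.ofLp j s = φ s * v j := by
    refine ⟨fun j => jv (gl (d := fun _ => Fin q) e (fun z => y₀ (e z)) j), fun s j => ?_⟩
    rw [mt, of_apply, hj2, funext fun z => gl_in (d := fun _ => Fin q) e s j z]
    refine congrArg _ (hj1 _ _ fun r hr => ?_)
    have hr' : r ∉ Q.rg e := fun h => hr (Q.mem_rg.1 h)
    rw [gl_out _ _ _ _ hr', gl_out _ _ _ _ hr']
  have e2 : nsq v = 1 := by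
    have e3 := fro_sq (mt e tgt.ofLp)
    rw [fro_mt, htgt] at e3
    simp only [e1, norm_mul, mul_pow, ← sum_mul] at e3
    rw [← EuclideanSpace.norm_sq_eq, hφ] at e3
    simpa [nsq] using e3.symm
  ext s' s
  have e4 := star_dot_self v
  rw [e2, dotProduct] at e4
  simp only [mul_apply, conjTranspose_apply, e1, vecMulVec_apply, Pi.star_apply, star_mul'] at e4 ⊢
  rw [← mul_one (star (φ s') * φ s), ← Complex.ofReal_one, ← e4, mul_sum]
  exact sum_congr rfl fun j _ => by ring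

lemma fro_gram_sub {J O : Type} [Fintype J] [Fintype O] {A Z : Matrix J O ℂ} {ε : ℝ}
    (e3 : fro A = 1) (e2 : fro Z ≤ ε) (hε : ε ≤ 1) : fro ((A + Z)ᴴ * (A + Z) - Aᴴ * A) ≤ 3 * ε := by
  have e4 : (A + Z)ᴴ * (A + Z) - Aᴴ * A = Aᴴ * Z + (Zᴴ * A + Zᴴ * Z) := by
    simp only [conjTranspose_add, Matrix.add_mul, Matrix.mul_add]; abel
  have e5 := fro_mul_le Aᴴ Z
  have e6 := fro_mul_le Zᴴ A
  have e7 := fro_mul_le Zᴴ Z
  rw [fro_conjTranspose] at e5 e6 e7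
  rw [e4]
  refine (fro_add_le _ _).trans ((add_le_add_right (fro_add_le _ _) _).trans ?_)
  rw [e3] at e5 e6
  nlinarith [fro_nonneg Z]

lemma delta_le {k ℓ : ℕ} (hk : 1 ≤ k) (hℓ : 4 * ℓ ≤ k) :
    (1 + 1 / (k : ℝ)) ^ (2 * ℓ) - 1 ≤ 4 * ℓ / k := by
  have hk0 : (0 : ℝ) < k := by exact_mod_cast hk
  have h1 : (4 * ℓ : ℝ) ≤ k := by exact_mod_cast hℓ
  have h2 : ((2 * ℓ : ℕ) : ℝ) * (1 / k) = 2 * ℓ / k := by push_cast; ring
  have := one_add_pow_le (y := 1 / (k : ℝ)) (by positivity) (2 * ℓ)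
    (by rw [h2, div_le_iff₀ hk0]; linarith)
  rw [h2] at this
  linarith [show (4 * ℓ / k : ℝ) = 2 * (2 * ℓ / k) by ring]

end Crest.Agent.N336.CL

namespace Crest.Agent.N336.P

open CL

theorem cl : CLStmt := by
  intro q Λ Pa _ _ _ _ φ n B ℓ κ D k fin I ε hφ ⟨N⟩ h0 hε hI hκ hD hk hℓ hx
  obtain ⟨R, g, own, hgI, hv, ψ₀, hψ, ⟨f, hf1, hf2⟩, e, he, tgt, htgt, ⟨jv, hj1, hj2⟩, hcl⟩ := N
  obtain ⟨y₀⟩ : Nonempty (R → Fin q) := by
    by_contra hne
    rw [not_nonempty_iff] at hne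
    rw [Subsingleton.elim tgt 0, norm_zero] at htgt
    exact zero_ne_one htgt
  have hne : ∀ t < n, (g t).I.Nonempty := fun t ht => by rw [hgI t ht]; exact (hI t ht).1
  have hs : ∀ t, ∃ (W : Type) (_ : Fintype W) (_ : Nonempty W) (T : W → Fin (g t).nb → Op R q),
      t < n → (∀ β, HSB (4 * ℓ / k) fun w => T w β - opOf ((g t).br β)) ∧
      (∀ w β, Sp (Own (own t) (g t).I) (T w β)) ∧
      ∀ w, SL (B * k ^ (2 * ℓ)) (own t) (own (t + 1)) (I t) (∑ β, T w β) := by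
    intro t
    by_cases ht : t < n
    · obtain ⟨W, i1, i2, T, h1, h2, h3⟩ := gate_samp y₀ (hv t ht) (hne t ht) hk
      refine ⟨W, i1, i2, T, fun _ => ⟨fun β => (h1 β).mono (delta_le hk hℓ), h2, ?_⟩⟩
      rw [← hgI t ht]; exact h3
    · exact ⟨Unit, inferInstance, inferInstance, 0, fun h => absurd h ht⟩
  choose W hW hW' T hT using hs
  obtain ⟨w, w', hw⟩ := exists_sample (T := T) (κ := κ) y₀
    ⟨hv, hne, fun t ht => (hT t ht).1, fun t ht => (hT t ht).2.1⟩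
    hψ (by positivity) e he (fun t ht => by rw [hgI t ht]; exact (hI t ht).2)
    (fun p => le_trans (le_of_eq (congrArg card (filter_congr fun t ht => by
      rw [hgI t (mem_range.1 ht)]))) (hκ p)) hD (ε := ε) (by linarith)
    (by simpa only [mul_assoc] using hx)
  have hpf := partyForm_tr (W := W) (V := B * k ^ (2 * ℓ)) (I := I) (ψ₀ := ψ₀.ofLp)
    ⟨fun p σ _ => f p σ, fun p σ σ' _ _ h _ => hf1 p σ σ' h, fun σ => by simp [hf2]⟩
    (fun t ht => (hT t ht).2.2) n le_rfl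
  have h2 : fro ((CL.mt e (run g ψ₀ n).ofLp)ᴴ * CL.mt e (run g ψ₀ n).ofLp -
      vecMulVec (star φ.ofLp) φ.ofLp) ≤ 3 * ε := by
    have e1 : CL.mt e (run g ψ₀ n).ofLp = CL.mt e tgt.ofLp + CL.mt e (run g ψ₀ n - tgt).ofLp := by
      ext j s; simp [CL.mt]
    rw [← mt_tgt y₀ e hφ htgt hj1 hj2, e1]
    exact fro_gram_sub (by rw [fro_mt, htgt]) (by rw [fro_mt]; exact hcl) (by linarith)
  obtain ⟨s', hne, θ, hθ⟩ := near_of_fro _ φ hφ (e := 7 * ε) (by linarith) (by linarith)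
    (((congrArg fro (sub_add_sub_cancel _ _ _).symm).trans_le (fro_add_le _ _)).trans
      ((add_le_add hw h2).trans (by linarith)))
  exact ⟨_, partyForm_row y₀ (hpf w) (hpf w') e he s', hne, θ, hθ.trans (by linarith)⟩

end Crest.Agent.N336.P
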