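import Crest.Agent.N336.Q.Cond

/-!
# Row 336, compression lemma (helper52): Frobenius norm, averages, random operators
-/

set_option autoImplicit false
set_option linter.unusedSectionVars false

open Matrix Finset
open scoped ComplexOrder MatrixOrder Matrix.Norms.L2Operator InnerProductSpace

namespace Crest.Agent.N336.CL

variable {m n p : Type} [Fintype m] [Fintype n] [Fintype p]

/-! ### averages -/

section av

variable {W W' M : Type} [Fintype W] [Fintype W'] [AddCommGroup M] [Module ℝ M]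

/-- uniform average -/
noncomputable def av (f : W → M) : M := ((Fintype.card W : ℝ)⁻¹) • ∑ w, f w

lemma av_add (f g : W → M) : av (fun w => f w + g w) = av f + av g := by
  simp [av, sum_add_distrib]

lemma av_sub (f g : W → M) : av (fun w => f w - g w) = av f - av g := by
  simp [av, sum_sub_distrib, smul_sub]

lemma av_sum {κ : Type*} (s : Finset κ) (f : κ → W → M) :
    av (fun w => ∑ i ∈ s, f i w) = ∑ i ∈ s, av (f i) := by
  simp only [av, ← smul_sum]; rw [sum_comm]

lemma av_zero : av (fun _ : W => (0 : M)) = 0 := by simp [av]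

lemma av_const [Nonempty W] (c : M) : av (fun _ : W => c) = c := by
  have : (Fintype.card W : ℝ) ≠ 0 := by exact_mod_cast Fintype.card_ne_zero
  simp only [av, sum_const, card_univ, ← Nat.cast_smul_eq_nsmul ℝ, smul_smul,
    inv_mul_cancel₀ this, one_smul]

lemma av_prod (f : W × W' → M) : av f = av fun w => av fun w' => f (w, w') := by
  simp only [av, Fintype.card_prod, Nat.cast_mul, mul_inv, Fintype.sum_prod_type, ← smul_sum,
    smul_smul]

lemma av_comm (f : W → W' → M) :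
    (av fun w => av fun w' => f w w') = av fun w' => av fun w => f w w' := by
  simp only [av, ← smul_sum, smul_smul]; rw [sum_comm, mul_comm]

lemma av_equiv (e : W ≃ W') (f : W' → M) : av (fun w => f (e w)) = av f := by
  simp only [av, Fintype.card_congr e, Equiv.sum_comp e f]

lemma av_map {N : Type} [AddCommGroup N] [Module ℝ N] (L : M →ₗ[ℝ] N) (f : W → M) :
    L (av f) = av fun w => L (f w) := by simp [av, map_sum]

lemma smul_av (c : ℝ) (f : W → M) : c • av f = av fun w => c • f w :=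
  av_map (c • LinearMap.id) f

lemma av_pi {κ : Type} [Fintype κ] [DecidableEq κ] {V : κ → Type} [∀ i, Fintype (V i)]
    [∀ i, Nonempty (V i)] (i : κ) (f : V i → M) : av (fun w : ∀ j, V j => f (w i)) = av f := by
  rw [← av_equiv (Equiv.piSplitAt i V).symm, av_prod]
  simp [Equiv.piSplitAt, av_const]

lemma av_mono {f g : W → ℝ} (h : ∀ w, f w ≤ g w) : av f ≤ av g := by
  simp only [av, smul_eq_mul]
  exact mul_le_mul_of_nonneg_left (sum_le_sum fun w _ => h w) (by positivity)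

lemma av_nonneg {f : W → ℝ} (h : ∀ w, 0 ≤ f w) : 0 ≤ av f := by
  have := av_mono (f := fun _ : W => (0 : ℝ)) h
  rwa [av_zero] at this

lemma exists_le_av [Nonempty W] (f : W → ℝ) : ∃ w, f w ≤ av f := by
  by_contra h
  push Not at h
  obtain ⟨w, -, hw⟩ := exists_min_image univ f univ_nonempty
  have := av_mono (f := fun _ : W => f w) (g := f) fun v => hw v (mem_univ v)
  rw [av_const] at this
  exact absurd (h w) (not_lt.2 this)

lemma av_le_sqrt [Nonempty W] (f : W → ℝ) : av f ≤ √(av fun w => f w ^ 2) := by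
  refine Real.le_sqrt_of_sq_le ?_
  have h0 : 0 ≤ av fun w => (f w - av f) ^ 2 := av_nonneg fun w => sq_nonneg _
  have h1 : (fun w => (f w - av f) ^ 2) = fun w => f w ^ 2 - (2 * av f) • f w + av f ^ 2 := by
    funext w; simp only [smul_eq_mul]; ring
  have h2 : av (fun w => (2 * av f) • f w) = (2 * av f) • av f :=
    (av_map ((2 * av f) • LinearMap.id) f).symm
  rw [h1, av_add, av_sub, av_const, h2, smul_eq_mul] at h0
  nlinarith

lemma av_apply (f : W → Matrix m n ℂ) (i : m) (j : n) : av f i j = av fun w => f w i j := by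
  simp [av, Matrix.sum_apply]

lemma av_apply' (f : W → m → ℂ) (i : m) : av f i = av fun w => f w i := by
  simp [av]

lemma mul_av (A : Matrix m n ℂ) (f : W → Matrix n p ℂ) : A * av f = av fun w => A * f w := by
  simp [av, Matrix.mul_sum]

lemma av_mul (f : W → Matrix m n ℂ) (A : Matrix n p ℂ) : av f * A = av fun w => f w * A := by
  simp [av, Matrix.sum_mul]

lemma av_conjTranspose (f : W → Matrix m n ℂ) : (av f)ᴴ = av fun w => (f w)ᴴ := by
  simp [av, conjTranspose_sum]

lemma trace_av (f : W → Matrix n n ℂ) : trace (av f) = av fun w => trace (f w) := by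
  simp [av, trace_sum]

lemma re_av (f : W → ℂ) : (av f).re = av fun w => (f w).re := av_map Complex.reLm f

lemma cmul_av (c : ℂ) (f : W → ℂ) : c * av f = av fun w => c * f w := by
  simp [av, mul_sum, mul_left_comm]

lemma av_cmul (c : ℂ) (f : W → ℂ) : av f * c = av fun w => f w * c := by
  simp [av, sum_mul, mul_assoc]

lemma av_posSemidef [DecidableEq n] {f : W → Matrix n n ℂ} (h : ∀ w, (f w).PosSemidef) :
    (av f).PosSemidef :=
  (posSemidef_sum _ fun w _ => h w).smul (by positivity)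

lemma av_le_av [DecidableEq n] {f g : W → Matrix n n ℂ} (h : ∀ w, f w ≤ g w) : av f ≤ av g := by
  rw [Matrix.le_iff, ← av_sub]; exact av_posSemidef fun w => Matrix.le_iff.1 (h w)

end av

/-! ### Frobenius norm -/

/-- squared Euclidean norm of a plain function -/
noncomputable def nsq (x : n → ℂ) : ℝ := ∑ i, ‖x i‖ ^ 2

lemma nsq_nonneg (x : n → ℂ) : 0 ≤ nsq x := sum_nonneg fun _ _ => sq_nonneg _

lemma nsq_eq (x : EuclideanSpace ℂ n) : nsq x.ofLp = ‖x‖ ^ 2 :=
  (EuclideanSpace.norm_sq_eq x).symm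

lemma nsq_mulVec_le [DecidableEq n] {R : Matrix m n ℂ} (h : ‖R‖ ≤ 1) (x : n → ℂ) :
    nsq (R *ᵥ x) ≤ nsq x := by
  have h1 := Matrix.l2_opNorm_mulVec R (WithLp.toLp 2 x)
  have h2 : ‖(WithLp.toLp 2 (R *ᵥ x) : EuclideanSpace ℂ m)‖ ≤ ‖(WithLp.toLp 2 x : EuclideanSpace ℂ n)‖ :=
    h1.trans (mul_le_of_le_one_left (norm_nonneg _) h)
  have h3 := nsq_eq (WithLp.toLp 2 (R *ᵥ x))
  have h4 := nsq_eq (WithLp.toLp 2 x)
  simp only at h3 h4
  rw [h3, h4]
  exact pow_le_pow_left₀ (norm_nonneg _) h2 2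

/-- a matrix as a vector -/
noncomputable def vc (M : Matrix m n ℂ) : EuclideanSpace ℂ (m × n) :=
  WithLp.toLp 2 fun x => M x.1 x.2

/-- Frobenius norm -/
noncomputable def fro (M : Matrix m n ℂ) : ℝ := ‖vc M‖

lemma fro_nonneg (M : Matrix m n ℂ) : 0 ≤ fro M := norm_nonneg _

lemma fro_sq (M : Matrix m n ℂ) : fro M ^ 2 = ∑ i, ∑ j, ‖M i j‖ ^ 2 := by
  rw [fro, EuclideanSpace.norm_sq_eq, Fintype.sum_prod_type]; rfl

lemma fro_le_of_sq {M : Matrix m n ℂ} {c : ℝ} (hc : 0 ≤ c) (h : fro M ^ 2 ≤ c ^ 2) : fro M ≤ c :=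
  (pow_le_pow_iff_left₀ (fro_nonneg _) hc two_ne_zero).1 h

lemma fro_add_le (M N : Matrix m n ℂ) : fro (M + N) ≤ fro M + fro N := norm_add_le (vc M) (vc N)

lemma fro_sub_le (M N : Matrix m n ℂ) : fro (M - N) ≤ fro M + fro N := norm_sub_le (vc M) (vc N)

lemma fro_zero : fro (0 : Matrix m n ℂ) = 0 := norm_zero (E := EuclideanSpace ℂ (m × n))

lemma fro_sum_le {κ : Type*} (s : Finset κ) (M : κ → Matrix m n ℂ) :
    fro (∑ i ∈ s, M i) ≤ ∑ i ∈ s, fro (M i) :=
  Finset.le_sum_of_subadditive fro fro_zero.le fro_add_le s M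

lemma fro_smul (c : ℝ) (M : Matrix m n ℂ) : fro (c • M) = |c| * fro M := by
  have : vc (c • M) = c • vc M := rfl
  rw [fro, this, norm_smul, Real.norm_eq_abs, fro]

lemma fro_conjTranspose (M : Matrix m n ℂ) : fro Mᴴ = fro M := by
  refine (pow_left_inj₀ (fro_nonneg _) (fro_nonneg _) two_ne_zero).1 ?_
  rw [fro_sq, fro_sq, sum_comm]; simp

lemma inner_vc (A B : Matrix m n ℂ) : ⟪vc A, vc B⟫_ℂ = trace (Aᴴ * B) := by
  simp only [PiLp.inner_apply, Fintype.sum_prod_type, trace, diag_apply, mul_apply,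
    conjTranspose_apply, vc]
  rw [sum_comm]
  simp [mul_comm]

lemma re_trace_le (A B : Matrix m n ℂ) : (trace (Aᴴ * B)).re ≤ fro A * fro B := by
  rw [← inner_vc]
  exact (Complex.re_le_norm _).trans (norm_inner_le_norm _ _)

lemma fro_sq_eq_trace (A : Matrix m n ℂ) : fro A ^ 2 = (trace (Aᴴ * A)).re := by
  rw [← inner_vc, fro]; exact (inner_self_eq_norm_sq (𝕜 := ℂ) (vc A)).symm

lemma fro_mul_le_left [DecidableEq n] {R : Matrix m n ℂ} (h : ‖R‖ ≤ 1) (X : Matrix n p ℂ) :
    fro (R * X) ≤ fro X := by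
  refine fro_le_of_sq (fro_nonneg _) ?_
  rw [fro_sq, fro_sq, sum_comm, sum_comm (s := univ (α := n))]
  exact sum_le_sum fun j _ => nsq_mulVec_le h fun i => X i j

lemma fro_conj_le [DecidableEq n] {R : Matrix m n ℂ} (h : ‖R‖ ≤ 1) (X : Matrix n n ℂ) :
    fro (R * X * Rᴴ) ≤ fro X := by
  rw [← fro_conjTranspose, conjTranspose_mul, conjTranspose_conjTranspose]
  refine (fro_mul_le_left h _).trans ?_
  rw [fro_conjTranspose]; exact fro_mul_le_left h _

lemma fro_mul_le (A : Matrix m n ℂ) (B : Matrix n p ℂ) : fro (A * B) ≤ fro A * fro B := by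
  refine fro_le_of_sq (mul_nonneg (fro_nonneg _) (fro_nonneg _)) ?_
  rw [mul_pow, fro_sq, fro_sq, fro_sq, sum_comm (s := univ (α := n)), sum_mul_sum]
  refine sum_le_sum fun i _ => sum_le_sum fun j _ => ?_
  rw [mul_apply]
  refine le_trans ?_ (sum_mul_sq_le_sq_mul_sq univ (fun k => ‖A i k‖) fun k => ‖B k j‖)
  refine pow_le_pow_left₀ (norm_nonneg _) ((norm_sum_le _ _).trans ?_) 2
  exact sum_le_sum fun k _ => (norm_mul _ _).le

lemma fro_vecMulVec (x : m → ℂ) : fro (vecMulVec x (star x)) = nsq x := by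
  refine (pow_left_inj₀ (fro_nonneg _) (nsq_nonneg _) two_ne_zero).1 ?_
  rw [fro_sq, nsq, sq (∑ _, _), sum_mul_sum]
  simp [vecMulVec_apply, mul_pow]

lemma fro_mono [DecidableEq n] {X Y : Matrix n n ℂ} (hX : X.PosSemidef) (h : X ≤ Y) :
    fro X ≤ fro Y := by
  have hY : Y.PosSemidef := by simpa using hX.add (Matrix.le_iff.1 h)
  refine fro_le_of_sq (fro_nonneg _) ?_
  rw [fro_sq_eq_trace, fro_sq_eq_trace, hX.1.eq, hY.1.eq]
  refine (Q.re_trace_mul_mono h hX).trans ?_
  rw [trace_mul_comm]; exact Q.re_trace_mul_mono h hY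

/-! ### random operators -/

section HSB

variable {W W' : Type} [Fintype W] [Fintype W']

/-- `Z ↦ 𝔼 K Z Kᴴ` has Hilbert-Schmidt norm at most `c` -/
def HSB (c : ℝ) (K : W → Matrix m n ℂ) : Prop :=
  0 ≤ c ∧ ∀ Z : Matrix n n ℂ, fro (av fun w => K w * Z * (K w)ᴴ) ≤ c * fro Z

lemma HSB.mono {c c' : ℝ} {K : W → Matrix m n ℂ} (h : HSB c K) (hc : c ≤ c') : HSB c' K :=
  ⟨h.1.trans hc, fun Z => (h.2 Z).trans (mul_le_mul_of_nonneg_right hc (fro_nonneg _))⟩

lemma HSB.adj {c : ℝ} {K : W → Matrix m n ℂ} (h : HSB c K) : HSB c fun w => (K w)ᴴ := by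
  refine ⟨h.1, fun Z => ?_⟩
  simp only [conjTranspose_conjTranspose]
  obtain ⟨Y, hY⟩ : ∃ Y, Y = av fun w => (K w)ᴴ * Z * K w := ⟨_, rfl⟩
  rw [← hY]
  have h1 : trace (Yᴴ * Y) = trace ((av fun w => K w * Y * (K w)ᴴ)ᴴ * Z) := by
    have h0 : Yᴴ * Y = av fun w => Yᴴ * ((K w)ᴴ * Z * K w) := by rw [← mul_av, ← hY]
    rw [h0, av_conjTranspose, av_mul, trace_av, trace_av]
    congr 1; funext w
    simp only [conjTranspose_mul, conjTranspose_conjTranspose, Matrix.mul_assoc]
    rw [trace_mul_comm (K w)]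
    simp only [Matrix.mul_assoc]
  have h2 : fro Y ^ 2 ≤ c * fro Y * fro Z := by
    rw [fro_sq_eq_trace, h1]
    exact (re_trace_le _ _).trans (mul_le_mul_of_nonneg_right (h.2 Y) (fro_nonneg _))
  rcases (fro_nonneg Y).eq_or_lt with h0 | h0
  · rw [← h0]; exact mul_nonneg h.1 (fro_nonneg _)
  · nlinarith

lemma HSB.pi {κ : Type} [Fintype κ] [DecidableEq κ] {V : κ → Type} [∀ i, Fintype (V i)]
    [∀ i, Nonempty (V i)] (i : κ) {c : ℝ} {K : V i → Matrix m n ℂ} (h : HSB c K) :
    HSB c fun w : ∀ j, V j => K (w i) :=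
  ⟨h.1, fun Z => by rw [av_pi i fun v => K v * Z * (K v)ᴴ]; exact h.2 Z⟩

/-- `That` is an unbiased estimator of the contraction `T` with variance `u - 1` -/
structure Appr [DecidableEq n] (That : W → Matrix m n ℂ) (T : Matrix m n ℂ) (u : ℝ) : Prop where
  mean : av That = T
  con : ‖T‖ ≤ 1
  dev : HSB (u - 1) fun w => That w - T

variable [DecidableEq m] [DecidableEq n] [DecidableEq p]

lemma Appr.mono {That : W → Matrix m n ℂ} {T : Matrix m n ℂ} {u u' : ℝ} (h : Appr That T u)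
    (hu : u ≤ u') : Appr That T u' := ⟨h.mean, h.con, h.dev.mono (by linarith)⟩

lemma Appr.adj {That : W → Matrix m n ℂ} {T : Matrix m n ℂ} {u : ℝ} (h : Appr That T u) :
    Appr (fun w => (That w)ᴴ) Tᴴ u :=
  ⟨by rw [← av_conjTranspose, h.mean], by rw [l2_opNorm_conjTranspose]; exact h.con,
    by simpa only [conjTranspose_sub] using h.dev.adj⟩

lemma Appr.const [Nonempty W] {T : Matrix m n ℂ} (h : ‖T‖ ≤ 1) : Appr (fun _ : W => T) T 1 :=
  ⟨av_const _, h, by simp, fun Z => by simp [av_zero, fro_zero]⟩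

lemma av_conj_add [Nonempty W] {D : W → Matrix m n ℂ} (hD : av D = 0) (A : Matrix n p ℂ)
    (B : Matrix m p ℂ) (Z : Matrix p p ℂ) :
    (av fun w => (D w * A + B) * Z * (D w * A + B)ᴴ) =
      (av fun w => D w * (A * Z * Aᴴ) * (D w)ᴴ) + B * Z * Bᴴ := by
  have h1 : (fun w => (D w * A + B) * Z * (D w * A + B)ᴴ) = fun w =>
      D w * (A * Z * Aᴴ) * (D w)ᴴ + (D w * (A * Z * Bᴴ) + (B * Z * Aᴴ * (D w)ᴴ + B * Z * Bᴴ)) := by
    funext w
    simp only [conjTranspose_add, conjTranspose_mul, Matrix.add_mul, Matrix.mul_add,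
      Matrix.mul_assoc]
    abel
  rw [h1, av_add, av_add, av_add, av_const, ← av_mul, ← mul_av, ← av_conjTranspose, hD]
  simp

lemma Appr.dev_mean [Nonempty W] {That : W → Matrix m n ℂ} {T : Matrix m n ℂ} {u : ℝ}
    (h : Appr That T u) : (av fun w => That w - T) = 0 := by
  rw [av_sub, av_const, h.mean, sub_self]

lemma Appr.hsb [Nonempty W] {That : W → Matrix m n ℂ} {T : Matrix m n ℂ} {u : ℝ}
    (h : Appr That T u) : HSB u That := by
  refine ⟨by linarith [h.dev.1], fun Z => ?_⟩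
  have h1 := av_conj_add h.dev_mean 1 T Z
  simp only [Matrix.mul_one, sub_add_cancel, Matrix.one_mul, conjTranspose_one] at h1
  rw [h1]
  refine (fro_add_le _ _).trans ?_
  linarith [h.dev.2 Z, fro_conj_le h.con Z]

lemma Appr.comp [Nonempty W] [Nonempty W'] {A : W → Matrix n p ℂ} {T : Matrix n p ℂ} {u : ℝ}
    {B : W' → Matrix m n ℂ} {R : Matrix m n ℂ} {v : ℝ} (hA : Appr A T u) (hB : Appr B R v) :
    Appr (fun w : W × W' => B w.2 * A w.1) (R * T) (u * v) := by
  have hu := hA.dev.1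
  have hv := hB.dev.1
  refine ⟨?_, ?_, by nlinarith, fun Z => ?_⟩
  · rw [av_prod]
    simp only [← av_mul, hB.mean, ← mul_av, hA.mean]
  · exact (l2_opNorm_mul _ _).trans (mul_le_one₀ hB.con (norm_nonneg _) hA.con)
  · have h1 : ∀ w : W × W', B w.2 * A w.1 - R * T = (B w.2 - R) * A w.1 + R * (A w.1 - T) := by
      intro w; simp only [Matrix.sub_mul, Matrix.mul_sub]; abel
    simp only [h1]
    rw [av_prod]
    simp only [av_conj_add hB.dev_mean]
    rw [av_add, av_comm]
    have h2 : (av fun w => R * (A w - T) * Z * (R * (A w - T))ᴴ) =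
        R * (av fun w => (A w - T) * Z * (A w - T)ᴴ) * Rᴴ := by
      rw [mul_av, av_mul]; simp only [conjTranspose_mul, Matrix.mul_assoc]
    simp only [h2, ← av_mul, ← mul_av]
    refine (fro_add_le _ _).trans ?_
    have h3 := hB.dev.2 (av fun w => A w * Z * (A w)ᴴ)
    have h4 := mul_le_mul_of_nonneg_left (hA.hsb.2 Z) hv
    have h5 := (fro_conj_le hB.con _).trans (hA.dev.2 Z)
    nlinarith

end HSB

end Crest.Agent.N336.CL
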