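import Crest.Agent.N336.P.CL.Src

/-!
# Row 336, compression lemma (helper52): the invariant `U N ρ c`

`U N ρ c`: every trace non-increasing completely positive map on the registers `N` (with an
output ancilla) sends `ρ` to a matrix of Frobenius norm at most `c`.
-/

set_option autoImplicit false
set_option linter.unusedSectionVars false

open Matrix Finset
open scoped ComplexOrder MatrixOrder Matrix.Norms.L2Operator InnerProductSpace

namespace Crest.Agent.N336.CL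

open Q

variable {ι κ : Type} [Fintype ι] [DecidableEq ι] [Fintype κ] [DecidableEq κ]
  {d : ι → Type} [∀ x, Fintype (d x)] [∀ x, DecidableEq (d x)]

section big

variable {J F : Type} [Fintype J] [Fintype F]

/-- stack a family of operators -/
def stk (V : F → Op d) : Matrix (F × Cfg d) (Cfg d) ℂ := Matrix.of fun x τ => V x.1 x.2 τ

/-- output of the map with Kraus operators `V` -/
noncomputable def big (V : J → F → Op d) (ρ : Op d) : Matrix (F × Cfg d) (F × Cfg d) ℂ :=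
  ∑ i, stk (V i) * ρ * (stk (V i))ᴴ

lemma fro_big_sq (V : J → F → Op d) (ρ : Op d) :
    fro (big V ρ) ^ 2 = ∑ f, ∑ f', fro (∑ i, V i f * ρ * (V i f')ᴴ) ^ 2 := by
  simp only [fro_sq, Fintype.sum_prod_type]
  refine sum_congr rfl fun f _ => ?_
  rw [sum_comm]
  refine sum_congr rfl fun f' _ => sum_congr rfl fun σ _ => sum_congr rfl fun τ _ => ?_
  simp [big, stk, Matrix.sum_apply, mul_apply]

end big

/-- the invariant -/
def U (N : Finset ι) (ρ : Op d) (c : ℝ) : Prop :=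
  ∀ (J F : Type) [Fintype J] [Fintype F] (V : J → F → Op d), (∀ i f, Supp N (V i f)) →
    (∀ x, ∑ i, ∑ f, nsq (V i f *ᵥ x) ≤ nsq x) → fro (big V ρ) ≤ c

variable {N N' : Finset ι} {ρ ρ' : Op d} {c c' : ℝ}

lemma U.nonneg (h : U N ρ c) : 0 ≤ c :=
  (fro_nonneg _).trans (h Empty Empty (fun i => i.elim) (fun i => i.elim) fun x => by
    simpa using nsq_nonneg x)

lemma U.mono (h : U N ρ c) (hc : c ≤ c') : U N ρ c' :=
  fun J F _ _ V h1 h2 => (h J F V h1 h2).trans hc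

lemma U.subset (h : U N ρ c) (hN : N' ⊆ N) : U N' ρ c :=
  fun J F _ _ V h1 h2 => h J F V (fun i f => (h1 i f).mono hN) h2

lemma U.base (N : Finset ι) {x : Cfg d → ℂ} (hx : nsq x ≤ 1) : U N (vecMulVec x (star x)) 1 := by
  intro J F _ _ V _ h2
  refine (fro_sum_le _ _).trans (le_trans (le_of_eq ?_) ((h2 x).trans hx))
  refine sum_congr rfl fun i _ => ?_
  rw [mul_vecMulVec, vecMulVec_mul, ← star_mulVec, fro_vecMulVec, nsq, Fintype.sum_prod_type]
  rfl

lemma U.le (h : U N ρ' c) (h0 : ρ.PosSemidef) (hρ : ρ ≤ ρ') : U N ρ c := by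
  classical
  intro J F _ _ V h1 h2
  refine (fro_mono (posSemidef_sum _ fun i _ => h0.mul_mul_conjTranspose_same _) ?_).trans
    (h J F V h1 h2)
  rw [Matrix.le_iff, big, ← sum_sub_distrib]
  refine posSemidef_sum _ fun i _ => ?_
  rw [← Matrix.sub_mul, ← Matrix.mul_sub]
  exact (Matrix.le_iff.1 hρ).mul_mul_conjTranspose_same _

lemma U.sum {α : Type*} {s : Finset α} {ρ : α → Op d} {c : α → ℝ}
    (h : ∀ a ∈ s, U N (ρ a) (c a)) : U N (∑ a ∈ s, ρ a) (∑ a ∈ s, c a) := by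
  intro J F _ _ V h1 h2
  have : big V (∑ a ∈ s, ρ a) = ∑ a ∈ s, big V (ρ a) := by
    simp only [big, Matrix.mul_sum, Matrix.sum_mul]; rw [sum_comm]
  rw [this]
  exact (fro_sum_le _ _).trans (sum_le_sum fun a ha => h a ha J F V h1 h2)

lemma U.smul (h : U N ρ c) {r : ℝ} (hr : 0 ≤ r) : U N (r • ρ) (r * c) := by
  intro J F _ _ V h1 h2
  have : big V (r • ρ) = r • big V ρ := by
    simp only [big, Matrix.mul_smul, Matrix.smul_mul, smul_sum]
  rw [this, fro_smul, abs_of_nonneg hr]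
  exact mul_le_mul_of_nonneg_left (h J F V h1 h2) hr

lemma U.inside (h : U N ρ c) {T : Op d} (hT : Supp N T) (h1 : ‖T‖ ≤ 1) :
    U N (T * ρ * Tᴴ) c := by
  intro J F _ _ V hV hn
  have h2 := h J F (fun i f => V i f * T) (fun i f => (hV i f).mul hT) fun x => by
    simp only [← mulVec_mulVec]; exact (hn _).trans (nsq_mulVec_le h1 x)
  refine fro_le_of_sq h.nonneg (le_trans (le_of_eq ?_) (pow_le_pow_left₀ (fro_nonneg _) h2 2))
  simp only [fro_big_sq, conjTranspose_mul, Matrix.mul_assoc]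

lemma U.outside (h : U N ρ c) {W : Type} [Fintype W] {K : W → Op d} {δ : ℝ}
    (hK : ∀ w, Supp Nᶜ (K w)) (hδ : HSB δ K) :
    U N (av fun w => K w * ρ * (K w)ᴴ) (δ * c) := by
  intro J F _ _ V hV hn
  have h2 := pow_le_pow_left₀ (fro_nonneg _) (h J F V hV hn) 2
  refine fro_le_of_sq (mul_nonneg hδ.1 h.nonneg) ?_
  rw [mul_pow]
  refine le_trans ?_ (mul_le_mul_of_nonneg_left h2 (sq_nonneg _))
  simp only [fro_big_sq, mul_sum]
  refine sum_le_sum fun f _ => sum_le_sum fun f' _ => ?_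
  rw [← mul_pow]
  refine pow_le_pow_left₀ (fro_nonneg _) (le_trans (le_of_eq ?_) (hδ.2 _)) 2
  congr 1
  simp only [mul_av, av_mul, ← av_sum, Matrix.mul_sum, Matrix.sum_mul]
  congr 1; funext w
  refine sum_congr rfl fun i _ => ?_
  have e1 := ((hV i f).commute (hK w) disjoint_compl_right).eq
  have e2 := congrArg conjTranspose ((hV i f').commute (hK w) disjoint_compl_right).eq
  simp only [conjTranspose_mul] at e2
  calc V i f * (K w * ρ * (K w)ᴴ) * (V i f')ᴴ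
      = (V i f * K w) * ρ * ((K w)ᴴ * (V i f')ᴴ) := by simp only [Matrix.mul_assoc]
    _ = _ := by rw [e1, e2]; simp only [Matrix.mul_assoc]

lemma U.outside' (h : U N ρ c) {T : Op d} (hT : Supp Nᶜ T) (h1 : ‖T‖ ≤ 1) :
    U N (T * ρ * Tᴴ) c := by
  have := h.outside (W := Unit) (K := fun _ => T) (fun _ => hT) (Appr.const h1).hsb
  rwa [av_const, one_mul] at this

/-- `⟨u| M |a⟩ ⊗ 1` -/
noncomputable def cmp (e : κ ↪ ι) (u : Cfg (sub e d)) (M : Op d) (a : Cfg (sub e d) → ℂ) : Op d :=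
  amp e ((bs e u)ᴴ * M * src e a)

lemma srcH_mul_cmp (e : κ ↪ ι) (u : Cfg (sub e d)) (M : Op d) (a a' : Cfg (sub e d) → ℂ) :
    (src e a')ᴴ * cmp e u M a = (bs e u)ᴴ * M * src e a * (src e a')ᴴ := srcH_mul_amp _ _ _

lemma nsq_cmp (e : κ ↪ ι) (M : Op d) (a : Cfg (sub e d) → ℂ) (x : Cfg d → ℂ) :
    ∑ u : Cfg (sub e d), nsq (cmp e u M a *ᵥ x) =
      ∑ v : Cfg (sub e d), nsq (M *ᵥ (src e a *ᵥ ((bs e v)ᴴ *ᵥ x))) := by
  have h1 : ∀ u : Cfg (sub e d), nsq (cmp e u M a *ᵥ x) =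
      ∑ v : Cfg (sub e d), nsq ((bs e u)ᴴ *ᵥ (M *ᵥ (src e a *ᵥ ((bs e v)ᴴ *ᵥ x)))) := fun u => by
    rw [nsq_blocks e]
    refine sum_congr rfl fun v _ => ?_
    rw [mulVec_mulVec, srcH_mul_cmp, ← mulVec_mulVec, ← mulVec_mulVec, ← mulVec_mulVec]
  rw [sum_congr rfl fun u _ => h1 u, sum_comm]
  exact sum_congr rfl fun v _ => (nsq_blocks e _).symm

lemma blk_cmp (e : κ ↪ ι) (M M' ρ : Op d) (a a' : Cfg (sub e d) → ℂ) (u u' : Cfg (sub e d)) :
    (bs e u)ᴴ * (M * (src e a * (src e a')ᴴ * ρ * (src e a * (src e a')ᴴ)ᴴ) * M'ᴴ) * bs e u' =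
      (src e a')ᴴ * (cmp e u M a * ρ * (cmp e u' M' a)ᴴ) * (src e a')ᴴᴴ := by
  have e1 := srcH_mul_cmp e u M a a'
  have e2 := congrArg conjTranspose (srcH_mul_cmp e u' M' a a')
  simp only [conjTranspose_mul, conjTranspose_conjTranspose] at e2
  calc _ = ((bs e u)ᴴ * M * src e a * (src e a')ᴴ) * ρ *
        (src e a' * ((src e a)ᴴ * (M'ᴴ * bs e u'))) := by
        simp only [conjTranspose_mul, conjTranspose_conjTranspose, Matrix.mul_assoc]
    _ = _ := by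
        rw [← e1, ← e2]; simp only [conjTranspose_conjTranspose, Matrix.mul_assoc]

lemma fro_cmp {J : Type} [Fintype J] (e : κ ↪ ι) (M M' : J → Op d) (ρ : Op d)
    {a a' : Cfg (sub e d) → ℂ} (ha' : nsq a' ≤ 1) :
    fro (∑ i, M i * (src e a * (src e a')ᴴ * ρ * (src e a * (src e a')ᴴ)ᴴ) * (M' i)ᴴ) ^ 2 ≤
      ∑ u : Cfg (sub e d), ∑ u' : Cfg (sub e d),
        fro (∑ i, cmp e u (M i) a * ρ * (cmp e u' (M' i) a)ᴴ) ^ 2 := by
  rw [fro_sq_blocks e]
  refine sum_le_sum fun u _ => sum_le_sum fun u' _ => ?_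
  refine pow_le_pow_left₀ (fro_nonneg _) (le_trans (le_of_eq ?_)
    (fro_conj_le (norm_srcH_le e ha') _)) 2
  refine congrArg fro ?_
  rw [Matrix.mul_sum, Matrix.sum_mul, Matrix.mul_sum, Matrix.sum_mul]
  exact sum_congr rfl fun i _ => blk_cmp e _ _ _ _ _ _ _

lemma U.rank [∀ x, Nonempty (d x)] (h : U N ρ c) (e : κ ↪ ι) {a a' : Cfg (sub e d) → ℂ}
    (ha : nsq a ≤ 1) (ha' : nsq a' ≤ 1) :
    U (N ∪ rg e) (src e a * (src e a')ᴴ * ρ * (src e a * (src e a')ᴴ)ᴴ) c := by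
  intro J F _ _ V hV hn
  have h2 := h J (F × Cfg (sub e d)) (fun i f => cmp e f.2 (V i f.1) a)
    (fun i f => supp_amp_cmp e (hV i f.1) _ _) fun x => by
      calc ∑ i, ∑ f : F × Cfg (sub e d), nsq (cmp e f.2 (V i f.1) a *ᵥ x)
          = ∑ v : Cfg (sub e d), ∑ i, ∑ f, nsq (V i f *ᵥ (src e a *ᵥ ((bs e v)ᴴ *ᵥ x))) := by
            refine Eq.trans (sum_congr rfl fun i _ => ?_) sum_comm
            rw [Fintype.sum_prod_type]
            exact (sum_congr rfl fun f _ => nsq_cmp e (V i f) a x).trans sum_comm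
        _ ≤ ∑ v : Cfg (sub e d), nsq ((bs e v)ᴴ *ᵥ x) :=
            sum_le_sum fun v _ => (hn _).trans (nsq_mulVec_le (norm_src_le e ha) _)
        _ = nsq x := (nsq_blocks e x).symm
  refine fro_le_of_sq h.nonneg (le_trans ?_ (pow_le_pow_left₀ (fro_nonneg _) h2 2))
  rw [fro_big_sq, fro_big_sq, Fintype.sum_prod_type]
  refine sum_le_sum fun f _ => ?_
  refine (sum_le_sum fun f' _ => fro_cmp e _ _ ρ ha').trans (le_of_eq ?_)
  rw [sum_comm]
  exact sum_congr rfl fun u _ => (Fintype.sum_prod_type (f := fun f' : F × Cfg (sub e d) =>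
    fro (∑ i, cmp e u (V i f) a * ρ * (cmp e f'.2 (V i f'.1) a)ᴴ) ^ 2)).symm

lemma U.pt [∀ x, Nonempty (d x)] {e : κ ↪ ι} (h : U (rg e) ρ c) : fro (pt e ρ) ≤ c := by
  obtain ⟨s₀⟩ : Nonempty (Cfg (sub e d)) := inferInstance
  have h1 : (bs (d := d) e s₀)ᴴ * bs e s₀ = 1 := by
    rw [srcH_mul_src, star_dot_self, nsq_single]; simp
  have h2 := h (Cfg (sub e d)) Unit (fun s _ => bs e s₀ * (bs e s)ᴴ)
    (fun s _ => supp_src_srcH e _ _) fun x => by
      rw [nsq_blocks e x]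
      refine sum_le_sum fun s _ => ?_
      rw [Fintype.sum_unique, ← mulVec_mulVec]
      exact nsq_mulVec_le (norm_src_le e (nsq_single _).le) _
  refine fro_le_of_sq h.nonneg (le_trans ?_ (pow_le_pow_left₀ (fro_nonneg _) h2 2))
  rw [fro_big_sq, Fintype.sum_unique, Fintype.sum_unique]
  refine pow_le_pow_left₀ (fro_nonneg _) (le_trans (le_of_eq ?_)
    (fro_conj_le (norm_srcH_le e (nsq_single s₀).le) _)) 2
  congr 1
  simp only [CL.pt, Matrix.mul_sum, Matrix.sum_mul]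
  refine sum_congr rfl fun s _ => ?_
  calc _ = ((bs e s₀)ᴴ * bs e s₀) * ((bs e s)ᴴ * ρ * bs e s) * ((bs e s₀)ᴴ * bs e s₀) := by
        rw [h1, Matrix.one_mul, Matrix.mul_one]
    _ = _ := by simp only [conjTranspose_mul, conjTranspose_conjTranspose, Matrix.mul_assoc]

lemma U.pt' [∀ x, Nonempty (d x)] {e : κ ↪ ι} (h : U N ρ c) {A : Finset ι} (hA : A ⊆ rg e)
    (hN : rg e ⊆ N ∪ A) : fro (CL.pt e ρ) ≤ dim d A * c := by
  have h1 : CL.pt e ρ = ∑ b : Cfg (sub (sb A) d), CL.pt e (bs (sb A) b * (bs (sb A) b)ᴴ * ρ *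
      (bs (sb A) b * (bs (sb A) b)ᴴ)ᴴ) := by
    ext j j'
    simp only [Matrix.sum_apply, pt_apply]
    rw [sum_comm]
    refine sum_congr rfl fun s _ => ?_
    have h2 : res (sb A) (gl e s j') = res (sb A) (gl e s j) := by
      funext x
      obtain ⟨k, hk⟩ := mem_rg.1 (hA x.2)
      have h3 : ∀ y, e k = y → gl e s j' y = gl e s j y := by
        rintro _ rfl; rw [gl_in, gl_in]
      exact h3 _ hk
    have h4 : ∀ b : Cfg (sub (sb A) d), bs (sb A) b * (bs (sb A) b)ᴴ * ρ *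
        (bs (sb A) b * (bs (sb A) b)ᴴ)ᴴ =
        bs (sb A) b * ((bs (sb A) b)ᴴ * ρ * bs (sb A) b) * (bs (sb A) b)ᴴ := fun b => by
      simp only [conjTranspose_mul, conjTranspose_conjTranspose, Matrix.mul_assoc]
    have h5 : ∀ b : Cfg (sub (sb A) d), (bs (sb A) b * (bs (sb A) b)ᴴ * ρ *
        (bs (sb A) b * (bs (sb A) b)ᴴ)ᴴ) (gl e s j) (gl e s j') =
        if res (sb A) (gl e s j) = b then ρ (gl e s j) (gl e s j') else 0 := fun b => by
      rw [h4, mul_srcH_apply, src_mul_apply, mul_bs_apply, bsH_mul_apply, h2, Pi.single_apply]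
      split_ifs with h6
      · subst h6
        rw [gl_res_off, ← h2, gl_res_off, one_mul, star_one, mul_one]
      · rw [zero_mul, zero_mul]
    rw [sum_congr rfl fun b _ => h5 b, sum_ite_eq, if_pos (mem_univ _)]
  rw [h1, ← card_sub_sb, ← card_univ, ← nsmul_eq_mul, ← sum_const]
  refine (fro_sum_le _ _).trans (sum_le_sum fun b _ => U.pt ?_)
  exact (h.rank (sb A) (nsq_single b).le (nsq_single b).le).subset (by rwa [rg_sb])

lemma conj_sum_le {n α : Type} [Fintype n] [DecidableEq n] [Fintype α] {ρ : Matrix n n ℂ}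
    (h : ρ.PosSemidef) (T : α → Matrix n n ℂ) :
    (∑ a, T a) * ρ * (∑ a, T a)ᴴ ≤ (Fintype.card α : ℝ) • ∑ a, T a * ρ * (T a)ᴴ := by
  have h1 : (∑ a, ∑ b, (T a - T b) * ρ * (T a - T b)ᴴ).PosSemidef :=
    posSemidef_sum _ fun a _ => posSemidef_sum _ fun b _ => h.mul_mul_conjTranspose_same _
  have h2 : (Fintype.card α : ℝ) • ∑ a, T a * ρ * (T a)ᴴ - (∑ a, T a) * ρ * (∑ a, T a)ᴴ =
      (2⁻¹ : ℝ) • ∑ a, ∑ b, (T a - T b) * ρ * (T a - T b)ᴴ := by
    have h3 : (∑ a, T a) * ρ * (∑ a, T a)ᴴ = ∑ a, ∑ b, T a * ρ * (T b)ᴴ := by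
      simp only [conjTranspose_sum, Matrix.sum_mul, Matrix.mul_sum]; exact sum_comm
    have h4 : ∑ a, ∑ b, T b * ρ * (T a)ᴴ = ∑ a, ∑ b, T a * ρ * (T b)ᴴ := sum_comm
    simp only [h3, conjTranspose_sub, Matrix.sub_mul, Matrix.mul_sub, sum_sub_distrib, h4,
      sum_const, card_univ, ← smul_sum, ← Nat.cast_smul_eq_nsmul ℝ]
    module
  rw [Matrix.le_iff, h2]
  exact h1.smul (by positivity)

end Crest.Agent.N336.CL
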