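import Crest.Agent.N336.P.CL.Fro

/-!
# Row 336, compression lemma (helper52): random product approximation of a bipartite vector
-/

set_option autoImplicit false
set_option linter.unusedSectionVars false

open Matrix Finset
open scoped ComplexOrder MatrixOrder Matrix.Norms.L2Operator InnerProductSpace

namespace Crest.Agent.N336.CL

open Q

/-! ### random phases -/

/-- fourth roots of unity -/
noncomputable def ph (x : ZMod 4) : ℂ := Complex.I ^ x.val

lemma ph_add_one (x : ZMod 4) : ph (x + 1) = Complex.I * ph x := by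
  have h : (x + 1).val = (x.val + 1) % 4 := by rw [ZMod.val_add]; rfl
  rw [ph, ph, h, ← pow_eq_pow_mod _ Complex.I_pow_four, pow_succ, mul_comm]

lemma ph_mul_star (x : ZMod 4) : ph x * star (ph x) = 1 := by
  rw [ph, star_pow, ← mul_pow]; simp

section ph

variable {ι : Type} [Fintype ι] [DecidableEq ι]

lemma ph_shift (g : ι → ZMod 4) (m i : ι) :
    ph ((g + Pi.single m 1 : ι → ZMod 4) i) = (if i = m then Complex.I else 1) * ph (g i) := by
  by_cases h : i = m
  · subst h; simp [ph_add_one]
  · simp [h]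

lemma av_eq_zero_of_shift (f : (ι → ZMod 4) → ℂ) (m : ι) {c : ℂ} (hc : c ≠ 1)
    (h : ∀ g, f (g + Pi.single m 1) = c * f g) : av f = 0 := by
  have h1 := av_equiv (Equiv.addRight (Pi.single m 1 : ι → ZMod 4)) f
  simp only [Equiv.coe_addRight, h, ← cmul_av] at h1
  have h2 : (c - 1) * av f = 0 := by rw [sub_mul, one_mul]; exact sub_eq_zero.2 h1
  exact (mul_eq_zero.1 h2).resolve_left (sub_ne_zero.2 hc)

/-- the monomial `g_i conj g_j` -/
noncomputable def mon (g : ι → ZMod 4) (i j : ι) : ℂ := ph (g i) * star (ph (g j))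

lemma mon_self (g : ι → ZMod 4) (i : ι) : mon g i i = 1 := ph_mul_star _

lemma I_ne_one : Complex.I ≠ 1 := fun h => by simpa using congrArg Complex.im h

lemma av_mon {i j : ι} (h : i ≠ j) : (av fun g => mon g i j) = 0 :=
  av_eq_zero_of_shift _ i I_ne_one fun g => by
    simp only [mon, ph_shift, if_true, if_neg h.symm, one_mul, mul_assoc]

lemma av_mon_mon {i j i' j' : ι} (h : i ≠ j) (h' : i' ≠ j') :
    (av fun g => mon g i j * star (mon g i' j')) = if i = i' ∧ j = j' then 1 else 0 := by
  split_ifs with h1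
  · obtain ⟨rfl, rfl⟩ := h1
    have : ∀ g : ι → ZMod 4, mon g i j * star (mon g i j) = 1 := fun g => by
      have e1 := ph_mul_star (g i)
      have e2 := ph_mul_star (g j)
      simp only [mon, star_mul', star_star]
      linear_combination (ph (g j) * star (ph (g j))) * e1 + e2
    simp only [this, av_const]
  · by_cases h2 : i = i'
    · subst h2
      have h3 : j ≠ j' := fun h3 => h1 ⟨rfl, h3⟩
      refine av_eq_zero_of_shift _ j' I_ne_one fun g => ?_
      simp only [mon, ph_shift, if_true, if_neg h', if_neg h3, one_mul, star_mul', star_star]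
      ring
    · by_cases h3 : j' = i
      · subst h3
        refine av_eq_zero_of_shift _ j' (c := -1) (by norm_num) fun g => ?_
        simp only [mon, ph_shift, if_true, if_neg h', if_neg h.symm, one_mul, star_mul',
          star_star]
        linear_combination (ph (g j') * star (ph (g j)) * star (ph (g i')) * ph (g j')) *
          Complex.I_mul_I
      · refine av_eq_zero_of_shift _ i I_ne_one fun g => ?_
        simp only [mon, ph_shift, if_true, if_neg h.symm, if_neg (Ne.symm h2), if_neg h3,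
          one_mul, star_mul', star_star]
        ring

end ph

variable {α β γ : Type} [Fintype α] [Fintype β] [Fintype γ]

lemma av_orth {W T : Type} [Fintype W] [DecidableEq T] (s : Finset T) (c : W → T → ℂ)
    (v : T → γ → ℂ)
    (h : ∀ t ∈ s, ∀ t' ∈ s, (av fun w => c w t * star (c w t')) = if t = t' then 1 else 0) :
    (av fun w => vecMulVec (∑ t ∈ s, c w t • v t) (star (∑ t ∈ s, c w t • v t))) =
      ∑ t ∈ s, vecMulVec (v t) (star (v t)) := by
  ext y y'
  have h1 : ∀ w, vecMulVec (∑ t ∈ s, c w t • v t) (star (∑ t ∈ s, c w t • v t)) y y' =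
      ∑ t ∈ s, ∑ t' ∈ s, c w t * star (c w t') * (v t y * star (v t' y')) := fun w => by
    simp only [vecMulVec_apply, Pi.star_apply, Finset.sum_apply, Pi.smul_apply, smul_eq_mul,
      star_sum, star_mul', sum_mul_sum]
    exact sum_congr rfl fun t _ => sum_congr rfl fun t' _ => by ring
  simp only [av_apply, h1, av_sum, ← av_cmul, Matrix.sum_apply, vecMulVec_apply, Pi.star_apply]
  refine sum_congr rfl fun t ht => ?_
  rw [sum_congr rfl fun t' ht' => by rw [h t ht t' ht']]
  simp [ht]

lemma fro_mul_conjTranspose (A : Matrix α β ℂ) : fro (A * Aᴴ) = fro (Aᴴ * A) := by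
  refine (pow_left_inj₀ (fro_nonneg _) (fro_nonneg _) two_ne_zero).1 ?_
  simp only [fro_sq_eq_trace, conjTranspose_mul, conjTranspose_conjTranspose, Matrix.mul_assoc]
  rw [trace_mul_comm]; simp only [Matrix.mul_assoc]

/-- factorisation through the Schatten-4 unit balls -/
lemma exists_fact [DecidableEq β] (M : Matrix α β ℂ) (h : fro M ≤ 1) :
    ∃ (A : Matrix α β ℂ) (B : Matrix β β ℂ), M = A * B ∧ fro (A * Aᴴ) ≤ 1 ∧ fro (Bᴴ * B) ≤ 1 := by
  have hH : (Mᴴ * M).PosSemidef := posSemidef_conjTranspose_mul_self M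
  set H := Mᴴ * M with hHd
  have key : fro (fr (fun x => √x) H) ≤ 1 := by
    refine fro_le_of_sq zero_le_one (le_trans (le_of_eq ?_) (pow_le_pow_left₀ (fro_nonneg _) h 2))
    rw [fro_sq_eq_trace, fro_sq_eq_trace, (fr_isHermitian _ _).eq, fc_mul, ← hHd]
    conv_rhs => rw [← fc_id hH.1]
    congr 2
    exact fc_congr fun i => by rw [← Complex.ofReal_mul, Real.mul_self_sqrt (ev_nonneg hH i)]
  refine ⟨M * fr (fun x => (√(√x))⁻¹) H, fr (fun x => √(√x)) H, ?_, ?_, ?_⟩
  · rw [Matrix.mul_assoc, fc_mul, ← sub_eq_zero]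
    conv_lhs => lhs; rw [← Matrix.mul_one M, ← fc_one H]
    rw [← Matrix.mul_sub, fc_sub, ← conjTranspose_mul_self_eq_zero, conjTranspose_mul,
      Matrix.mul_assoc, ← Matrix.mul_assoc Mᴴ, ← hHd, fc_conjTranspose]
    conv_lhs => rhs; lhs; rw [← fc_id hH.1]
    rw [fc_mul, fc_mul, ← fc_zero H]
    refine fc_congr fun i => ?_
    rcases (ev_nonneg hH i).eq_or_lt with h0 | h0
    · simp [← h0]
    · have : √(√(ev H i)) ≠ 0 := by positivity
      rw [← Complex.ofReal_mul, inv_mul_cancel₀ this]; simp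
  · rw [fro_mul_conjTranspose, conjTranspose_mul, (fr_isHermitian _ _).eq, Matrix.mul_assoc,
      ← Matrix.mul_assoc Mᴴ, ← hHd]
    conv_lhs => rhs; rhs; lhs; rw [← fc_id hH.1]
    rw [fc_mul, fc_mul]
    refine le_trans (le_of_eq (congrArg fro (fc_congr fun i => ?_))) key
    rcases (ev_nonneg hH i).eq_or_lt with h0 | h0
    · simp [← h0]
    · have h1 : √(√(ev H i)) ≠ 0 := by positivity
      have h2 := Real.mul_self_sqrt (Real.sqrt_nonneg (ev H i))
      have h3 := Real.mul_self_sqrt h0.le
      rw [← Complex.ofReal_mul, ← Complex.ofReal_mul, Complex.ofReal_inj]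
      field_simp
      rw [sq, h2, h3]
  · rw [(fr_isHermitian _ _).eq, fc_mul]
    refine le_trans (le_of_eq (congrArg fro (fc_congr fun i => ?_))) key
    rw [← Complex.ofReal_mul, Real.mul_self_sqrt (Real.sqrt_nonneg _)]

lemma fro_kron (e : γ ≃ α × β) (X : Matrix α α ℂ) (Y : Matrix β β ℂ) :
    fro (Matrix.of fun y y' => X (e y).1 (e y').1 * Y (e y').2 (e y).2) = fro X * fro Y := by
  refine (pow_left_inj₀ (fro_nonneg _) (mul_nonneg (fro_nonneg _) (fro_nonneg _))
    two_ne_zero).1 ?_
  rw [mul_pow, fro_sq, fro_sq, fro_sq, ← Equiv.sum_comp e.symm, Fintype.sum_prod_type, sum_mul]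
  refine sum_congr rfl fun x _ => ?_
  simp only [← Equiv.sum_comp e.symm, Fintype.sum_prod_type, of_apply, Equiv.apply_symm_apply,
    norm_mul, mul_pow]
  rw [sum_comm, sum_mul]
  refine sum_congr rfl fun x' _ => ?_
  rw [sum_comm, mul_sum]
  exact sum_congr rfl fun y _ => (mul_sum _ _ _).symm

/-- a bipartite vector is the mean of a sum of `k` random product vectors, variance `1/k` -/
theorem node_core [DecidableEq γ] (e : γ ≃ α × β) (a : γ → ℂ) (ha : nsq a ≤ 1) {k : ℕ}
    (hk : 1 ≤ k) : ∃ (W : Type) (_ : Fintype W) (_ : Nonempty W) (f : W → Fin k → α → ℂ)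
      (g : W → Fin k → β → ℂ) (b : W → γ → ℂ),
      (∀ w, b w = ∑ j, fun y => f w j (e y).1 * g w j (e y).2) ∧ av b = a ∧
      fro (av fun w => vecMulVec (b w - a) (star (b w - a))) ≤ 1 / k := by
  classical
  have hk0 : (k : ℂ) ≠ 0 := by exact_mod_cast (by omega : k ≠ 0)
  have hk1 : (0 : ℝ) < k := by exact_mod_cast hk
  obtain ⟨A, B, hM, hA, hB⟩ := exists_fact (Matrix.of fun x y => a (e.symm (x, y))) (by
    refine fro_le_of_sq zero_le_one (le_trans (le_of_eq ?_) (ha.trans_eq (one_pow 2).symm))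
    rw [fro_sq, nsq, ← Equiv.sum_comp e.symm, Fintype.sum_prod_type]; rfl)
  let v : Fin k × β × β → γ → ℂ := fun t y => (k : ℂ)⁻¹ * (A (e y).1 t.2.1 * B t.2.2 (e y).2)
  let c : (Fin k × β → ZMod 4) → Fin k × β × β → ℂ := fun w t => mon w (t.1, t.2.1) (t.1, t.2.2)
  let s : Finset (Fin k × β × β) := univ.filter fun t => t.2.1 ≠ t.2.2
  have hd : ∀ w, (∑ t, c w t • v t) - a = ∑ t ∈ s, c w t • v t := fun w => by
    rw [sub_eq_iff_eq_add, ← sum_filter_add_sum_filter_not univ fun t => t.2.1 ≠ t.2.2]
    congr 1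
    funext y
    have h1 : a y = ∑ i, A (e y).1 i * B i (e y).2 := by
      have := congrFun (congrFun hM (e y).1) (e y).2
      simpa [mul_apply] using this
    simp only [ne_eq, not_not, sum_filter, Fintype.sum_prod_type, sum_ite_eq, mem_univ, if_true,
      Finset.sum_apply, Pi.smul_apply, smul_eq_mul, c, v, mon_self, one_mul, ← mul_sum, ← h1,
      sum_const, card_univ, Fintype.card_fin, nsmul_eq_mul]
    field_simp
  refine ⟨Fin k × β → ZMod 4, inferInstance, inferInstance,
    fun w j x => (k : ℂ)⁻¹ * ∑ i, A x i * ph (w (j, i)),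
    fun w j y => ∑ i, star (ph (w (j, i))) * B i y, fun w => ∑ t, c w t • v t, fun w => ?_, ?_, ?_⟩
  · funext y
    simp only [Finset.sum_apply, Pi.smul_apply, smul_eq_mul, Fintype.sum_prod_type, c, v, mon]
    refine sum_congr rfl fun j _ => ?_
    rw [mul_assoc, sum_mul_sum, mul_sum]
    refine sum_congr rfl fun i _ => ?_
    rw [mul_sum]
    exact sum_congr rfl fun i' _ => by ring
  · have h1 : (av fun w => (∑ t, c w t • v t) - a) = 0 := by
      simp only [hd, av_sum]
      refine sum_eq_zero fun t ht => funext fun y => ?_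
      have h2 : (t.1, t.2.1) ≠ (t.1, t.2.2) := fun h => (mem_filter.1 ht).2 (Prod.mk.inj h).2
      simp only [av_apply', Pi.smul_apply, smul_eq_mul, ← av_cmul, c, av_mon h2, zero_mul,
        Pi.zero_apply]
    rwa [av_sub, av_const, sub_eq_zero] at h1
  · simp only [hd]
    rw [av_orth s c v fun t ht t' ht' => ?_]
    · have h1 : ∑ t, vecMulVec (v t) (star (v t)) = (k : ℝ)⁻¹ • Matrix.of fun y y' =>
          (A * Aᴴ) (e y).1 (e y').1 * (Bᴴ * B) (e y').2 (e y).2 := by
        ext y y'
        simp only [Matrix.sum_apply, vecMulVec_apply, Pi.star_apply, v, Fintype.sum_prod_type,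
          sum_const, card_univ, Fintype.card_fin, nsmul_eq_mul, Matrix.smul_apply, of_apply,
          mul_apply, conjTranspose_apply, Complex.real_smul, star_mul',
          star_inv₀, star_natCast, Complex.ofReal_inv, Complex.ofReal_natCast]
        rw [sum_mul_sum, mul_sum, mul_sum]
        refine sum_congr rfl fun i _ => ?_
        rw [mul_sum, mul_sum]
        refine sum_congr rfl fun i' _ => ?_
        field_simp
      have h2 : ∀ u : Finset (Fin k × β × β), (∑ t ∈ u, vecMulVec (v t) (star (v t))).PosSemidef :=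
        fun u => posSemidef_sum _ fun t _ => posSemidef_vecMulVec_self_star _
      refine (fro_mono (Y := ∑ t, vecMulVec (v t) (star (v t))) (h2 s) ?_).trans ?_
      · rw [Matrix.le_iff, ← sum_sdiff (subset_univ s), add_sub_cancel_right]; exact h2 _
      · rw [h1, fro_smul, fro_kron, abs_of_nonneg (by positivity), one_div]
        exact mul_le_of_le_one_right (by positivity) (mul_le_one₀ hA (fro_nonneg _) hB)
    · have h2 : (t.1, t.2.1) ≠ (t.1, t.2.2) := fun h => (mem_filter.1 ht).2 (Prod.mk.inj h).2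
      have h3 : (t'.1, t'.2.1) ≠ (t'.1, t'.2.2) := fun h => (mem_filter.1 ht').2 (Prod.mk.inj h).2
      simp only [c, av_mon_mon h2 h3]
      refine if_congr ?_ rfl rfl
      simp only [Prod.ext_iff]; tauto

end Crest.Agent.N336.CL
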