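import Crest.Agent.N336.P.CL.Samp

/-!
# Row 336, compression lemma (helper52): sampled runs, second moment, choice of a row
-/

set_option autoImplicit false
set_option linter.unusedSectionVars false

open Matrix Finset
open scoped ComplexOrder MatrixOrder Matrix.Norms.L2Operator

namespace Crest.Agent.N336.CL

open Crest.MathPhysics.LatticeSpin P

/-! ### general facts -/

lemma one_add_pow_le {y : ℝ} (hy : 0 ≤ y) : ∀ N : ℕ, N * y ≤ 1 / 2 → (1 + y) ^ N ≤ 1 + 2 * (N * y)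
  | 0, _ => by simp
  | N + 1, h => by
    push_cast at h ⊢
    have h1 := one_add_pow_le hy N (by nlinarith)
    rw [pow_succ]
    nlinarith [mul_le_mul_of_nonneg_right h1 (by linarith : 0 ≤ 1 + y), mul_nonneg hy hy]

lemma second_moment {W W' J O : Type} [Fintype W] [Fintype W'] [Fintype J] [Fintype O]
    (A : W → Matrix J O ℂ) (A' : W' → Matrix J O ℂ) :
    (av fun w : W × W' => fro ((A' w.2)ᴴ * A w.1) ^ 2) ≤
      fro (av fun w => A w * (A w)ᴴ) * fro (av fun w => A' w * (A' w)ᴴ) := by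
  refine le_trans (le_of_eq ?_) (re_trace_le _ _)
  rw [av_prod, av_conjTranspose, av_mul, trace_av, re_av]
  congr 1; funext w
  rw [mul_av, trace_av, re_av]
  congr 1; funext w'
  simp only [fro_sq_eq_trace, conjTranspose_mul, conjTranspose_conjTranspose, Matrix.mul_assoc]
  rw [trace_mul_comm (A w)]; simp only [Matrix.mul_assoc]

lemma near_of_fro {Λ : Type} [Fintype Λ] [DecidableEq Λ] {q : ℕ} (X : Op Λ q) (φ : Vec Λ q)
    (hφ : ‖φ‖ = 1) {e : ℝ} (h0 : 0 < e) (h1 : e ≤ 1 / 4)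
    (h : fro (X - vecMulVec (star φ.ofLp) φ.ofLp) ≤ e) :
    ∃ s, Near (WithLp.toLp 2 (X s)) φ (4 * e) := by
  let r : (Λ → Fin q) → Vec Λ q := fun s => WithLp.toLp 2 (X s)
  have h2 : ∑ s, ‖r s - star (φ s) • φ‖ ^ 2 ≤ e ^ 2 := by
    refine le_trans (le_of_eq ?_) (pow_le_pow_left₀ (fro_nonneg _) h 2)
    rw [fro_sq]
    exact sum_congr rfl fun s _ => EuclideanSpace.norm_sq_eq _
  have h3 : (1 - e) ^ 2 ≤ ∑ s, ‖r s‖ ^ 2 := by
    have e1 : fro (vecMulVec (star φ.ofLp) φ.ofLp) = 1 := by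
      have := fro_vecMulVec (star φ.ofLp)
      rw [star_star] at this
      rw [this, ← one_pow 2, ← hφ, ← nsq_eq]; simp [nsq]
    have e2 := fro_sub_le X (X - vecMulVec (star φ.ofLp) φ.ofLp)
    rw [sub_sub_cancel, e1] at e2
    refine (pow_le_pow_left₀ (by linarith) (by linarith : 1 - e ≤ fro X) 2).trans_eq ?_
    rw [fro_sq]
    exact sum_congr rfl fun s _ => (EuclideanSpace.norm_sq_eq (r s)).symm
  obtain ⟨s, -, hs⟩ : ∃ s ∈ univ, ‖r s - star (φ s) • φ‖ ^ 2 < (2 * e * ‖r s‖) ^ 2 := by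
    refine exists_lt_of_sum_lt (h2.trans_lt ?_)
    simp only [mul_pow, ← mul_sum]
    nlinarith [mul_le_mul_of_nonneg_left h3 (sq_nonneg e), mul_pos h0 h0]
  have h4 : ‖r s - star (φ s) • φ‖ < 2 * e * ‖r s‖ :=
    lt_of_pow_lt_pow_left₀ 2 (by positivity) hs
  have h5 : 0 < ‖r s‖ := by
    by_contra h5
    have : ‖r s‖ = 0 := le_antisymm (not_lt.1 h5) (norm_nonneg _)
    rw [this, mul_zero] at h4
    exact absurd h4 (not_lt.2 (norm_nonneg _))
  set c : ℂ := ((‖r s‖⁻¹ : ℝ) : ℂ) * star (φ s) with hc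
  have h6 : ‖((‖r s‖⁻¹ : ℝ) : ℂ) • r s - c • φ‖ ≤ 2 * e := by
    rw [hc, mul_smul, ← smul_sub, norm_smul, Complex.norm_real, norm_inv, norm_norm,
      inv_mul_le_iff₀ h5, mul_comm]
    exact h4.le
  have h7 : ‖((‖r s‖⁻¹ : ℝ) : ℂ) • r s‖ = 1 := by
    rw [norm_smul, Complex.norm_real, norm_inv, norm_norm, inv_mul_cancel₀ h5.ne']
  have h8 := (abs_norm_sub_norm_le _ _).trans h6
  rw [h7, norm_smul, hφ, mul_one] at h8
  refine ⟨s, norm_pos_iff.1 h5, c.arg, (norm_sub_le_norm_sub_add_norm_sub _ (c • φ) _).trans ?_⟩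
  have h9 : ‖c • φ - Complex.exp (c.arg * Complex.I) • φ‖ = |1 - ‖c‖| := by
    rw [← sub_smul, norm_smul, hφ, mul_one]
    have : c - Complex.exp (c.arg * Complex.I) =
        ((‖c‖ - 1 : ℝ) : ℂ) * Complex.exp (c.arg * Complex.I) := by
      push_cast; rw [sub_mul, Complex.norm_mul_exp_arg_mul_I, one_mul]
    rw [this, norm_mul, Complex.norm_exp_ofReal_mul_I, mul_one, Complex.norm_real,
      Real.norm_eq_abs, abs_sub_comm]
  change ‖((‖r s‖⁻¹ : ℝ) : ℂ) • r s - c • φ‖ + _ ≤ _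
  linarith

/-! ### runs -/

/-- samples of the first `t` gates -/
def Om (W : ℕ → Type) : ℕ → Type
  | 0 => Unit
  | t + 1 => Om W t × W t

variable {W : ℕ → Type}

instance omF [∀ t, Fintype (W t)] : ∀ t, Fintype (Om W t)
  | 0 => inferInstanceAs (Fintype Unit)
  | t + 1 => @instFintypeProd _ _ (omF t) _

instance omN [∀ t, Nonempty (W t)] : ∀ t, Nonempty (Om W t)
  | 0 => inferInstanceAs (Nonempty Unit)
  | t + 1 => @instNonemptyProd _ _ (omN t) _

variable {C : Type} [Fintype C] [DecidableEq C]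

/-- the run with random gates `G` -/
noncomputable def tr (G : ∀ t, W t → Matrix C C ℂ) (ψ₀ : C → ℂ) : ∀ t, Om W t → C → ℂ
  | 0, _ => ψ₀
  | t + 1, w => G t w.2 *ᵥ tr G ψ₀ t w.1

lemma tr_congr {G G' : ∀ t, W t → Matrix C C ℂ} (ψ₀ : C → ℂ) :
    ∀ t, (∀ t' < t, G t' = G' t') → ∀ w, tr G ψ₀ t w = tr G' ψ₀ t w
  | 0, _, _ => rfl
  | t + 1, h, w => by
    simp only [tr, h t t.lt_succ_self, tr_congr ψ₀ t fun t' ht' => h t' (ht'.trans t.lt_succ_self)]

/-- deviation on `S`, exact gate elsewhere -/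
noncomputable def dev (G : ∀ t, W t → Matrix C C ℂ) (T : ℕ → Matrix C C ℂ) (S : Finset ℕ) :
    ∀ t, W t → Matrix C C ℂ := fun t v => if t ∈ S then G t v - T t else T t

lemma tr_expand (G : ∀ t, W t → Matrix C C ℂ) (T : ℕ → Matrix C C ℂ) (ψ₀ : C → ℂ) :
    ∀ t w, tr G ψ₀ t w = ∑ S ∈ (range t).powerset, tr (dev G T S) ψ₀ t w
  | 0, _ => by simp [tr]
  | t + 1, w => by
    rw [range_add_one, sum_powerset_insert notMem_range_self, ← sum_add_distrib, tr,
      tr_expand G T ψ₀ t, mulVec_sum]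
    refine sum_congr rfl fun S hS => ?_
    have h1 : t ∉ S := fun h => notMem_range_self (mem_powerset.1 hS h)
    have h2 := tr_congr (G := dev G T (insert t S)) (G' := dev G T S) ψ₀ t (fun t' ht' => by
      funext v; simp [dev, ht'.ne]) w.1
    simp only [tr, h2, dev, if_neg h1, mem_insert_self, if_true, ← add_mulVec, add_sub_cancel]

variable [∀ t, Fintype (W t)]

/-- second moment of a run -/
noncomputable def rho (G : ∀ t, W t → Matrix C C ℂ) (ψ₀ : C → ℂ) (t : ℕ) : Matrix C C ℂ :=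
  av fun w => vecMulVec (tr G ψ₀ t w) (star (tr G ψ₀ t w))

lemma rho_zero (G : ∀ t, W t → Matrix C C ℂ) (ψ₀ : C → ℂ) :
    rho G ψ₀ 0 = vecMulVec ψ₀ (star ψ₀) := av_const (W := Unit) _

lemma rho_succ (G : ∀ t, W t → Matrix C C ℂ) (ψ₀ : C → ℂ) (t : ℕ) :
    rho G ψ₀ (t + 1) = av fun v => G t v * rho G ψ₀ t * (G t v)ᴴ := by
  refine (av_prod (W := Om W t) (W' := W t) _).trans ?_
  rw [av_comm]
  congr 1; funext v
  rw [rho, mul_av, av_mul]
  congr 1; funext w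
  rw [mul_vecMulVec, vecMulVec_mul, ← star_mulVec]; rfl

lemma rho_psd (G : ∀ t, W t → Matrix C C ℂ) (ψ₀ : C → ℂ) (t : ℕ) : (rho G ψ₀ t).PosSemidef :=
  av_posSemidef fun _ => posSemidef_vecMulVec_self_star _

end Crest.Agent.N336.CL
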