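import Crest.Agent.N336.P.CL.Prod
import Crest.Agent.N336.P.CL.Node
import Crest.Agent.N336.P.CL.Inv

/-!
# Row 336, compression lemma (helper52): sampled gates and the invariant along a gate
-/

set_option autoImplicit false
set_option linter.unusedSectionVars false

open Matrix Finset
open scoped ComplexOrder MatrixOrder Matrix.Norms.L2Operator

namespace Crest.Agent.N336.CL

open Crest.MathPhysics.LatticeSpin P

variable {R Pa : Type} [Fintype R] [DecidableEq R] [Fintype Pa] [DecidableEq Pa] {q : ℕ}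

/-- support, constant local dimension -/
abbrev Sp (X : Finset R) (M : Op R q) : Prop := Q.Supp (d := fun _ => Fin q) X M

/-- the invariant, constant local dimension -/
abbrev UU (X : Finset R) (ρ : Op R q) (c : ℝ) : Prop := U (d := fun _ => Fin q) X ρ c

/-- source on a set of registers -/
abbrev sr (A : Finset R) (a : (↥A → Fin q) → ℂ) := src (d := fun _ => Fin q) (Q.sb A) a

lemma sp_localOp (A : Finset R) (m : Matrix (↥A → Fin q) (↥A → Fin q) ℂ) :
    Sp A (localOp A m) := Q.isSupportedOn_iff.1 ⟨m, rfl⟩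

lemma norm_localOp_le (A : Finset R) (m : Matrix (↥A → Fin q) (↥A → Fin q) ℂ) :
    ‖localOp A m‖ ≤ opN m := by
  rw [Q.localOp_eq]; exact Q.norm_emb_le _ _

lemma localOp_rank (A : Finset R) (a a' : (↥A → Fin q) → ℂ) :
    localOp A (vecMulVec a (star a')) = sr A a * (sr A a')ᴴ := by
  rw [Q.localOp_eq]; exact emb_vecMulVec (d := fun _ => Fin q) (Q.sb A) a a'

theorem node {A : Finset R} {o : R → Pa} {I : Finset Pa} {a : (↥A → Fin q) → ℂ} (hPB : PB o A a)
    (ha : nsq a ≤ 1) (hA : ∀ r ∈ A, o r ∈ I) (hI : I.Nonempty) {k : ℕ} (hk : 1 ≤ k) :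
    ∃ (W : Type) (_ : Fintype W) (_ : Nonempty W) (b : W → Fin k → (↥A → Fin q) → ℂ),
      (∀ w j, PV (fun r : A => o r) I (b w j)) ∧
      Appr (fun w => sr A (∑ j, b w j)) (sr A a) (1 + 1 / k) := by
  have ho : ∀ r : A, o r ∈ I := fun r => hA r r.2
  rcases hPB with ⟨p, p', hp⟩ | ⟨e, c, rfl⟩
  · let E := Equiv.piEquivPiSubtypeProd (fun r : A => o r = p) fun _ => Fin q
    obtain ⟨W, _, _, f, g, b, h1, h2, h3⟩ := node_core E a ha hk
    refine ⟨W, ‹_›, ‹_›, fun w j y => f w j (E y).1 * g w j (E y).2,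
      fun w j => PV.mul (PV.of_dep hI ho (p := p) ?_) (PV.of_dep hI ho (p := p') ?_), ?_⟩
    rotate_left 2
    · simp only [← h1]; exact appr_src (d := fun _ => Fin q) (Q.sb A) h2 ha h3
    · intro y y' h
      exact congrArg (f w j) (funext fun r => h r.1 r.2)
    · intro y y' h
      exact congrArg (g w j) (funext fun r => h r.1 ((hp r.1 r.1.2).resolve_left r.2))
  · have hk0 : (k : ℂ) ≠ 0 := by exact_mod_cast (by omega : k ≠ 0)
    refine ⟨Unit, inferInstance, inferInstance, fun _ _ => Pi.single e ((k : ℂ)⁻¹ * c),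
      fun _ _ => PV.single hI ho _ _, ?_⟩
    have : (∑ _j : Fin k, Pi.single e ((k : ℂ)⁻¹ * c) : (↥A → Fin q) → ℂ) = Pi.single e c := by
      funext y
      simp only [sum_const, card_univ, Fintype.card_fin, Pi.smul_apply, nsmul_eq_mul,
        Pi.single_apply]
      split_ifs
      · field_simp
      · simp
    simp only [this]
    exact (Appr.const (norm_src_le _ ha)).mono (le_add_of_nonneg_right (by positivity))

/-- registers owned by `I` -/
def Own (o : R → Pa) (I : Finset Pa) : Finset R := univ.filter fun r => o r ∈ I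

variable {I Inv : Finset Pa} {o o' : R → Pa} {k : ℕ}

lemma valid_sub {st : Step R Pa q} (h : st.Valid I o) : st.A ⊆ Own o I :=
  fun r hr => mem_filter.2 ⟨mem_univ _, (h.2.1 r hr).1⟩

lemma valid_own {st : Step R Pa q} (h : st.Valid I o) (r : R) :
    (o r ∈ I ∧ st.out r ∈ I) ∨ st.out r = o r :=
  (em (r ∈ st.A)).imp (h.2.1 r) (h.1 r)

lemma chain_own : ∀ {l : List (Step R Pa q)} {o : R → Pa}, Chain I o l o' → ∀ r,
    (o r ∈ I ∧ o' r ∈ I) ∨ o' r = o r
  | [], _, h, r => Or.inr (congrFun h r).symm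
  | st :: l, o, h, r => by
    rcases valid_own h.1 r with h1 | h1 <;> rcases chain_own h.2 r with h2 | h2
    · exact Or.inl ⟨h1.1, h2.2⟩
    · exact Or.inl ⟨h1.1, h2 ▸ h1.2⟩
    · exact Or.inl ⟨h1 ▸ h2.1, h2.2⟩
    · exact Or.inr (h2.trans h1)

lemma own_eq (h : ∀ r, (o r ∈ I ∧ o' r ∈ I) ∨ o' r = o r) {K : Finset Pa}
    (hK : I ⊆ K ∨ Disjoint I K) : Own o' K = Own o K := by
  ext r
  simp only [Own, mem_filter, mem_univ, true_and]
  rcases h r with h1 | h1
  · rcases hK with h2 | h2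
    · exact ⟨fun _ => h2 h1.1, fun _ => h2 h1.2⟩
    · exact ⟨fun h3 => absurd h3 (disjoint_left.1 h2 h1.2),
        fun h3 => absurd h3 (disjoint_left.1 h2 h1.1)⟩
  · rw [h1]

lemma chain_supp : ∀ {l : List (Step R Pa q)} {o : R → Pa}, Chain I o l o' →
    Sp (Own o I) (opOf l)
  | [], _, _ => Q.Supp.one _
  | st :: _, _, h => (own_eq (valid_own h.1) (Or.inl subset_rfl) ▸ chain_supp h.2).mul
      ((sp_localOp st.A st.M).mono (valid_sub h.1))

theorem step_samp (y₀ : R → Fin q) {st : Step R Pa q} (h : st.Valid I o) (hI : I.Nonempty)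
    (hk : 1 ≤ k) : ∃ (W : Type) (_ : Fintype W) (_ : Nonempty W) (T : W → Op R q),
      Appr T (localOp st.A st.M) ((1 + 1 / k) ^ 2) ∧ (∀ w, Sp st.A (T w)) ∧
      ∀ w, SL (k ^ 2) o st.out I (T w) := by
  obtain ⟨h1, h2, ⟨h3, p, hp⟩ | ⟨a, a', h3, ha, ha', h4, h5⟩⟩ := h
  · obtain ⟨p', hp', h4⟩ : ∃ p' ∈ I, ∀ r ∈ st.A, o r = p' := by
      rcases st.A.eq_empty_or_nonempty with h4 | ⟨r, hr⟩
      · exact ⟨hI.choose, hI.choose_spec, by simp [h4]⟩
      · exact ⟨p, (hp r hr).1 ▸ (h2 r hr).1, fun r hr => (hp r hr).1⟩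
    have h5 : st.out = o := funext fun r => by
      by_cases hr : r ∈ st.A
      · rw [(hp r hr).1, (hp r hr).2]
      · exact h1 r hr
    refine ⟨Unit, inferInstance, inferInstance, fun _ => localOp st.A st.M,
      (Appr.const ((norm_localOp_le _ _).trans h3)).mono
        (one_le_pow₀ (le_add_of_nonneg_right (by positivity))), fun _ => sp_localOp _ _,
      fun _ => ?_⟩
    rw [h5]
    exact ((Loc.priv st.M hp' h4).sl hI).mono (Nat.one_le_pow _ _ hk)
  · obtain ⟨W, _, _, b, hb, hW⟩ := node h5 ha (fun r hr => (h2 r hr).2) hI hk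
    obtain ⟨W', _, _, b', hb', hW'⟩ := node h4 ha' (fun r hr => (h2 r hr).1) hI hk
    have hL : ∀ (w : W' × W) (j : Fin k × Fin k),
        Loc o st.out I (localOp st.A (vecMulVec (b w.2 j.1) (star (b' w.1 j.2)))) :=
      fun w j => Loc.rank y₀ (hb _ _) (hb' _ _) h1 fun r hr => (h2 r hr).1
    refine ⟨W' × W, inferInstance, inferInstance,
      fun w => sr st.A (∑ j, b w.2 j) * (sr st.A (∑ j, b' w.1 j))ᴴ, ?_, fun w => ?_,
      fun w => ⟨(hL w (⟨0, hk⟩, ⟨0, hk⟩)).zero hI, Fin k × Fin k, inferInstance, _,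
        by simp [pow_two], hL w, ?_⟩⟩
    · have h6 := hW'.adj.comp hW
      rw [h3, localOp_rank, pow_two]
      exact h6
    · simp only [← localOp_rank]; exact sp_localOp _ _
    · simp only [localOp_rank, sr, src_sum, conjTranspose_sum, Matrix.sum_mul, Matrix.mul_sum,
        Fintype.sum_prod_type]
      exact sum_comm

theorem chain_samp (y₀ : R → Fin q) (hI : I.Nonempty) (hk : 1 ≤ k) :
    ∀ {l : List (Step R Pa q)} {o : R → Pa}, Chain I o l o' →
      ∃ (W : Type) (_ : Fintype W) (_ : Nonempty W) (T : W → Op R q),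
        Appr T (opOf l) ((1 + 1 / k) ^ (2 * l.length)) ∧ (∀ w, Sp (Own o I) (T w)) ∧
        ∀ w, SL (k ^ (2 * l.length)) o o' I (T w)
  | [], o, h => ⟨Unit, inferInstance, inferInstance, fun _ => 1,
      by simpa [opOf] using Appr.const norm_one_le, fun _ => Q.Supp.one _,
      fun _ => by cases h; exact (Loc.one _ _).sl hI⟩
  | st :: l, o, h => by
    obtain ⟨W, _, _, T, h1, h2, h3⟩ := step_samp y₀ h.1 hI hk
    obtain ⟨W', _, _, T', h4, h5, h6⟩ := chain_samp y₀ hI hk h.2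
    rw [own_eq (valid_own h.1) (Or.inl subset_rfl)] at h5
    have e : 2 * (st :: l).length = 2 + 2 * l.length := by rw [List.length_cons]; ring
    refine ⟨W × W', inferInstance, inferInstance, fun w => T' w.2 * T w.1, ?_,
      fun w => (h5 _).mul ((h2 _).mono (valid_sub h.1)), fun w => ?_⟩
    · rw [e, pow_add]; exact h1.comp h4
    · rw [e, pow_add]; exact (h3 _).comp (h6 _)

theorem gate_samp (y₀ : R → Fin q) {g : Gate R Pa q} {B ℓ : ℕ} (h : g.Valid B ℓ o o')
    (hI : g.I.Nonempty) (hk : 1 ≤ k) :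
    ∃ (W : Type) (_ : Fintype W) (_ : Nonempty W) (T : W → Fin g.nb → Op R q),
      (∀ β, HSB ((1 + 1 / k) ^ (2 * ℓ) - 1) fun w => T w β - opOf (g.br β)) ∧
      (∀ w β, Sp (Own o g.I) (T w β)) ∧ ∀ w, SL (B * k ^ (2 * ℓ)) o o' g.I (∑ β, T w β) := by
  choose W hW hW' T h1 h2 h3 using fun β => chain_samp y₀ hI hk (h.2.2.1 β).2
  refine ⟨∀ β, W β, inferInstance, inferInstance, fun w β => T β (w β), fun β => ?_,
    fun w β => h2 β _, fun w => ?_⟩
  · refine (HSB.pi β (h1 β).dev).mono (sub_le_sub_right (pow_le_pow_right₀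
      (le_add_of_nonneg_right (by positivity)) ?_) _)
    linarith [(h.2.2.1 β).1]
  · refine (SL.sum h.1 fun β => (h3 β (w β)).mono (Nat.pow_le_pow_right hk ?_)).mono
      (Nat.mul_le_mul_right _ h.2.1)
    linarith [(h.2.2.1 β).1]

/-! ### the invariant along steps and gates -/

variable {ρ : Op R q} {c : ℝ}

lemma U_step (y₀ : R → Fin q) {st : Step R Pa q} (h : st.Valid I o) (hU : UU (Own o Inv)ᶜ ρ c) :
    UU (Own st.out Inv)ᶜ (localOp st.A st.M * ρ * (localOp st.A st.M)ᴴ) c := by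
  obtain ⟨h1, h2, ⟨h3, p, hp⟩ | ⟨a, a', h3, ha, ha', -, -⟩⟩ := h
  · have h5 : st.out = o := funext fun r => by
      by_cases hr : r ∈ st.A
      · rw [(hp r hr).1, (hp r hr).2]
      · exact h1 r hr
    have h6 := (norm_localOp_le _ _).trans h3
    rw [h5]
    by_cases h7 : p ∈ Inv
    · exact hU.outside' ((sp_localOp _ _).mono fun r hr => by simp [Own, (hp r hr).1, h7]) h6
    · exact hU.inside ((sp_localOp _ _).mono fun r hr => by simp [Own, (hp r hr).1, h7]) h6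
  · rw [h3, localOp_rank]
    refine (@U.rank R st.A _ _ _ _ (fun _ => Fin q) _ _ _ _ _ (fun x => ⟨y₀ x⟩) hU (Q.sb st.A) _ _
      ha ha').subset fun r hr => ?_
    by_cases h4 : r ∈ st.A
    · simp [h4]
    · simpa [Own, h4, h1 r h4] using hr

lemma U_chain (y₀ : R → Fin q) : ∀ {l : List (Step R Pa q)} {o : R → Pa} {ρ : Op R q}, Chain I o l o' →
    UU (Own o Inv)ᶜ ρ c → UU (Own o' Inv)ᶜ (opOf l * ρ * (opOf l)ᴴ) c
  | [], _, _, h, hU => by cases h; simpa [opOf] using hU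
  | st :: l, _, _, h, hU => by
    have := U_chain y₀ h.2 (U_step y₀ h.1 hU)
    simpa only [opOf, conjTranspose_mul, Matrix.mul_assoc] using this

variable {g : Gate R Pa q} {B ℓ : ℕ}

lemma U_gate_out (h : g.Valid B ℓ o o') (hd : Disjoint g.I Inv) (hU : UU (Own o Inv)ᶜ ρ c) :
    UU (Own o' Inv)ᶜ (g.op * ρ * g.opᴴ) c := by
  rw [own_eq (chain_own (h.2.2.1 ⟨0, h.1⟩).2) (Or.inr hd)]
  refine hU.inside (Q.Supp.sum fun β _ => (chain_supp (h.2.2.1 β).2).mono fun r hr => ?_) h.2.2.2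
  simp only [Own, mem_filter, mem_univ, true_and, mem_compl] at hr ⊢
  exact disjoint_left.1 hd hr

lemma U_branches {N : Finset R} {nb : ℕ} (hB : nb ≤ B) {ρ' : Op R q} {σ : Fin nb → Op R q}
    (h0 : ρ'.PosSemidef) (hc : 0 ≤ c) (h1 : ρ' ≤ (Fintype.card (Fin nb) : ℝ) • ∑ β, σ β)
    (h2 : ∀ β, UU N (σ β) c) : UU N ρ' ((B : ℝ) ^ 2 * c) := by
  refine (((U.sum fun β _ => h2 β).smul (Nat.cast_nonneg _)).le h0 h1).mono ?_
  have : (nb : ℝ) ≤ B := by exact_mod_cast hB
  rw [sum_const, card_univ, Fintype.card_fin, nsmul_eq_mul, ← mul_assoc, ← pow_two]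
  gcongr

lemma U_gate_meet (y₀ : R → Fin q) (h : g.Valid B ℓ o o') (h0 : ρ.PosSemidef) (hU : UU (Own o Inv)ᶜ ρ c) :
    UU (Own o' Inv)ᶜ (g.op * ρ * g.opᴴ) ((B : ℝ) ^ 2 * c) :=
  U_branches h.2.1 (h0.mul_mul_conjTranspose_same _) hU.nonneg (conj_sum_le h0 _)
    fun β => U_chain y₀ (h.2.2.1 β).2 hU

lemma U_gate_dev (h : g.Valid B ℓ o o') (hI : g.I ⊆ Inv) (h0 : ρ.PosSemidef)
    (hU : UU (Own o Inv)ᶜ ρ c) {W : Type} [Fintype W] {T : W → Fin g.nb → Op R q} {δ : ℝ}
    (h1 : ∀ β, HSB δ fun w => T w β - opOf (g.br β)) (h2 : ∀ w β, Sp (Own o g.I) (T w β)) :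
    UU (Own o' Inv)ᶜ (av fun w => (∑ β, T w β - g.op) * ρ * (∑ β, T w β - g.op)ᴴ)
      ((B : ℝ) ^ 2 * (δ * c)) := by
  rw [own_eq (chain_own (h.2.2.1 ⟨0, h.1⟩).2) (Or.inl hI)]
  refine U_branches h.2.1 (av_posSemidef fun w => h0.mul_mul_conjTranspose_same _)
    (mul_nonneg (h1 ⟨0, h.1⟩).1 hU.nonneg) ?_ fun β => hU.outside (fun w => ?_) (h1 β)
  · rw [← av_sum, smul_av]
    refine av_le_av fun w => ?_
    rw [Gate.op, ← sum_sub_distrib]
    exact conj_sum_le h0 _
  · refine ((h2 w β).sub (chain_supp (h.2.2.1 β).2)).mono fun r hr => ?_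
    simp only [Own, mem_filter, mem_univ, true_and, compl_compl] at hr ⊢
    exact hI hr

end Crest.Agent.N336.CL
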