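import Crest.Agent.N336.P.CL.Fro

/-!
# Row 336, compression lemma (helper52): sources `|a⟩ ⊗ 1`, amplification, partial trace
-/

set_option autoImplicit false
set_option linter.unusedSectionVars false

open Matrix Finset
open scoped ComplexOrder MatrixOrder Matrix.Norms.L2Operator InnerProductSpace

namespace Crest.Agent.N336.CL

open Q

variable {ι κ : Type} [Fintype ι] [DecidableEq ι] [Fintype κ] [DecidableEq κ]
  {d : ι → Type} [∀ x, Fintype (d x)] [∀ x, DecidableEq (d x)] {m : Type} [Fintype m]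

/-- glue an inside and an outside configuration -/
noncomputable abbrev gl (e : κ ↪ ι) (u : Cfg (sub e d)) (ρ : Rest (rg e) d) : Cfg d :=
  (eqv e d).symm (u, ρ)

lemma gl_res_off (e : κ ↪ ι) (σ : Cfg d) : gl e (res e σ) (off (rg e) σ) = σ :=
  (eqv e d).symm_apply_apply σ

lemma sum_cfg {M : Type} [AddCommMonoid M] (e : κ ↪ ι) (f : Cfg d → M) :
    ∑ σ, f σ = ∑ u, ∑ ρ, f (gl e u ρ) := by
  rw [← Equiv.sum_comp (eqv e d).symm, Fintype.sum_prod_type]

lemma gl_in (e : κ ↪ ι) (u : Cfg (sub e d)) (ρ : Rest (rg e) d) (k : κ) : gl e u ρ (e k) = u k :=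
  congrFun (res_symm e (u, ρ)) k

lemma gl_out (e : κ ↪ ι) (u : Cfg (sub e d)) (ρ : Rest (rg e) d) (x : ι) (hx : x ∉ rg e) :
    gl e u ρ x = ρ ⟨x, hx⟩ := congrFun (off_symm e (u, ρ)) ⟨x, hx⟩

/-- `|a⟩ ⊗ 1` -/
def src (e : κ ↪ ι) (a : Cfg (sub e d) → ℂ) : Matrix (Cfg d) (Rest (rg e) d) ℂ :=
  Matrix.of fun σ ρ => if off (rg e) σ = ρ then a (res e σ) else 0

lemma src_mul_apply (e : κ ↪ ι) (a : Cfg (sub e d) → ℂ) (X : Matrix (Rest (rg e) d) m ℂ)
    (σ : Cfg d) (j : m) : (src e a * X) σ j = a (res e σ) * X (off (rg e) σ) j := by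
  simp [src, mul_apply]

lemma mul_srcH_apply (e : κ ↪ ι) (a : Cfg (sub e d) → ℂ) (X : Matrix m (Rest (rg e) d) ℂ)
    (j : m) (σ : Cfg d) : (X * (src e a)ᴴ) j σ = X j (off (rg e) σ) * star (a (res e σ)) := by
  simp [src, mul_apply, apply_ite star]

lemma mul_src_apply (e : κ ↪ ι) (a : Cfg (sub e d) → ℂ) (X : Matrix m (Cfg d) ℂ)
    (j : m) (ρ : Rest (rg e) d) : (X * src e a) j ρ = ∑ u, X j (gl e u ρ) * a u := by
  rw [mul_apply, sum_cfg e]; simp [src]

lemma srcH_mul_apply (e : κ ↪ ι) (a : Cfg (sub e d) → ℂ) (X : Matrix (Cfg d) m ℂ)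
    (ρ : Rest (rg e) d) (j : m) : ((src e a)ᴴ * X) ρ j = ∑ u, star (a u) * X (gl e u ρ) j := by
  rw [mul_apply, sum_cfg e]; simp [src, apply_ite star]

lemma src_sub (e : κ ↪ ι) (a b : Cfg (sub e d) → ℂ) : src e (a - b) = src e a - src e b := by
  ext σ ρ; simp only [src, of_apply, Matrix.sub_apply, Pi.sub_apply]; split_ifs <;> simp

lemma src_sum {α : Type*} (e : κ ↪ ι) (s : Finset α) (a : α → Cfg (sub e d) → ℂ) :
    src e (∑ i ∈ s, a i) = ∑ i ∈ s, src e (a i) := by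
  ext σ ρ; simp only [src, of_apply, Matrix.sum_apply, Finset.sum_apply]; split_ifs <;> simp

lemma src_av {W : Type} [Fintype W] (e : κ ↪ ι) (a : W → Cfg (sub e d) → ℂ) :
    (av fun w => src e (a w)) = src e (av a) := by
  ext σ ρ
  rw [av_apply]
  simp only [src, of_apply, av_apply']
  split_ifs
  · rfl
  · exact av_zero

lemma emb_vecMulVec (e : κ ↪ ι) (a a' : Cfg (sub e d) → ℂ) :
    emb e (vecMulVec a (star a')) = src e a * (src e a')ᴴ := by
  ext σ τ
  rw [emb_apply, src_mul_apply]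
  simp only [src, conjTranspose_apply, of_apply, off_eq_iff, agree_comm (σ := τ), vecMulVec_apply,
    Pi.star_apply]
  split_ifs <;> simp

lemma srcH_mul_src (e : κ ↪ ι) (a a' : Cfg (sub e d) → ℂ) :
    (src e a')ᴴ * src e a = (star a' ⬝ᵥ a) • (1 : Matrix _ _ ℂ) := by
  ext ρ ρ'
  rw [srcH_mul_apply]
  simp only [src, of_apply, off_symm, res_symm, Matrix.smul_apply, Matrix.one_apply, dotProduct,
    Pi.star_apply]
  split_ifs <;> simp

lemma norm_one_le {n : Type} [Fintype n] [DecidableEq n] : ‖(1 : Matrix n n ℂ)‖ ≤ 1 := by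
  rw [← norm_ap, ap, map_one]; exact ContinuousLinearMap.norm_id_le

lemma star_dot_self {n : Type} [Fintype n] (a : n → ℂ) : star a ⬝ᵥ a = (nsq a : ℂ) := by
  simp [dotProduct, nsq, Complex.conj_mul']

lemma norm_src_le (e : κ ↪ ι) {a : Cfg (sub e d) → ℂ} (h : nsq a ≤ 1) : ‖src e a‖ ≤ 1 := by
  have h1 := l2_opNorm_conjTranspose_mul_self (src e a)
  rw [srcH_mul_src, star_dot_self, norm_smul, Complex.norm_real,
    Real.norm_of_nonneg (nsq_nonneg _)] at h1
  have h2 := mul_le_one₀ h (norm_nonneg _) (norm_one_le (n := Rest (rg e) d))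
  nlinarith [norm_nonneg (src e a)]

lemma norm_srcH_le (e : κ ↪ ι) {a : Cfg (sub e d) → ℂ} (h : nsq a ≤ 1) : ‖(src e a)ᴴ‖ ≤ 1 := by
  rw [l2_opNorm_conjTranspose]; exact norm_src_le e h

/-- `|u⟩ ⊗ 1` -/
abbrev bs (e : κ ↪ ι) (u : Cfg (sub e d)) : Matrix (Cfg d) (Rest (rg e) d) ℂ :=
  src e (Pi.single u 1)

lemma nsq_single {n : Type} [Fintype n] [DecidableEq n] (u : n) :
    nsq (Pi.single u (1 : ℂ) : n → ℂ) = 1 := by
  simp [nsq, Pi.single_apply, apply_ite norm]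

lemma bsH_mul_apply (e : κ ↪ ι) (u : Cfg (sub e d)) (X : Matrix (Cfg d) m ℂ)
    (ρ : Rest (rg e) d) (j : m) : ((bs e u)ᴴ * X) ρ j = X (gl e u ρ) j := by
  rw [srcH_mul_apply]; simp [Pi.single_apply, apply_ite star]

lemma mul_bs_apply (e : κ ↪ ι) (u : Cfg (sub e d)) (X : Matrix m (Cfg d) ℂ)
    (j : m) (ρ : Rest (rg e) d) : (X * bs e u) j ρ = X j (gl e u ρ) := by
  rw [mul_src_apply]; simp [Pi.single_apply]

lemma bsH_mulVec (e : κ ↪ ι) (u : Cfg (sub e d)) (x : Cfg d → ℂ) (ρ : Rest (rg e) d) :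
    ((bs e u)ᴴ *ᵥ x) ρ = x (gl e u ρ) :=
  bsH_mul_apply (m := Unit) e u (Matrix.of fun i _ => x i) ρ ()

lemma sum_bs (e : κ ↪ ι) : ∑ u, bs (d := d) e u * (bs e u)ᴴ = 1 := by
  simp only [← emb_vecMulVec, ← map_sum]
  rw [← map_one (emb (d := d) e)]
  congr 1
  ext a b
  simp [Matrix.sum_apply, vecMulVec_apply, Pi.single_apply, one_apply]

lemma fro_sq_blocks (e : κ ↪ ι) (M : Op d) :
    fro M ^ 2 = ∑ u, ∑ u', fro ((bs (d := d) e u)ᴴ * M * bs (d := d) e u') ^ 2 := by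
  simp only [fro_sq, mul_bs_apply, bsH_mul_apply]
  rw [sum_cfg e]
  refine sum_congr rfl fun u _ => ?_
  rw [sum_comm]
  refine (sum_cfg e _).trans (sum_congr rfl fun u' _ => sum_comm)

lemma nsq_blocks (e : κ ↪ ι) (x : Cfg d → ℂ) : nsq x = ∑ u, nsq ((bs e u)ᴴ *ᵥ x) := by
  simp only [nsq, bsH_mulVec]; exact sum_cfg e _

/-- `1 ⊗ m` -/
def amp (e : κ ↪ ι) (M : Matrix (Rest (rg e) d) (Rest (rg e) d) ℂ) : Op d :=
  Matrix.of fun σ τ => if res e σ = res e τ then M (off (rg e) σ) (off (rg e) τ) else 0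

lemma amp_mul_src (e : κ ↪ ι) (M : Matrix (Rest (rg e) d) (Rest (rg e) d) ℂ)
    (a : Cfg (sub e d) → ℂ) : amp e M * src e a = src e a * M := by
  ext σ ρ
  rw [mul_src_apply, src_mul_apply]; simp [amp, mul_comm]

lemma srcH_mul_amp (e : κ ↪ ι) (M : Matrix (Rest (rg e) d) (Rest (rg e) d) ℂ)
    (a : Cfg (sub e d) → ℂ) : (src e a)ᴴ * amp e M = M * (src e a)ᴴ := by
  ext ρ σ
  rw [srcH_mul_apply, mul_srcH_apply]; simp [amp, mul_comm]

lemma supp_amp (e : κ ↪ ι) (M : Matrix (Rest (rg e) d) (Rest (rg e) d) ℂ) :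
    Supp (rg e)ᶜ (amp e M) where
  zero σ τ h := by
    rw [amp, of_apply, if_neg]
    exact fun h1 => h fun x hx => res_eq_iff.1 h1 x (by simpa using hx)
  dep σ τ σ' τ' h h' h1 h2 := by
    have e1 : res e σ = res e τ := res_eq_iff.2 fun x hx => h x (by simpa using hx)
    have e2 : res e σ' = res e τ' := res_eq_iff.2 fun x hx => h' x (by simpa using hx)
    have e3 : off (rg e) σ = off (rg e) σ' := off_eq_iff.2 fun x hx => h1 x (by simpa using hx)
    have e4 : off (rg e) τ = off (rg e) τ' := off_eq_iff.2 fun x hx => h2 x (by simpa using hx)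
    simp only [amp, of_apply, e1, e2, e3, e4, if_true]

lemma supp_src_srcH (e : κ ↪ ι) (a a' : Cfg (sub e d) → ℂ) :
    Supp (rg e) (src e a * (src e a')ᴴ) := by
  rw [← emb_vecMulVec]; exact supp_emb _ _

/-- compressing the registers of `e` out of an operator -/
lemma supp_amp_cmp [∀ x, Nonempty (d x)] (e : κ ↪ ι) {X : Finset ι} {M : Op d}
    (h : Supp (X ∪ rg e) M) (a b : Cfg (sub e d) → ℂ) :
    Supp X (amp e ((src e b)ᴴ * M * src e a)) := by
  have h1 : Supp (X ∪ rg e) (amp e ((src e b)ᴴ * M * src e a)) := by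
    rw [← Matrix.mul_one (amp e _), ← sum_bs e, Matrix.mul_sum]
    refine Supp.sum fun v _ => ?_
    have : amp e ((src e b)ᴴ * M * src e a) * (bs e v * (bs e v)ᴴ) =
        (bs e v * (src e b)ᴴ) * M * (src e a * (bs e v)ᴴ) := by
      rw [← Matrix.mul_assoc, amp_mul_src]; simp only [Matrix.mul_assoc]
    rw [this]
    exact (((supp_src_srcH e _ _).mono subset_union_right).mul h).mul
      ((supp_src_srcH e _ _).mono subset_union_right)
  refine (h1.inter (supp_amp e _)).mono fun x hx => ?_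
  simp only [mem_inter, mem_union, mem_compl] at hx
  tauto

/-- a sampled source -/
lemma appr_src {W : Type} [Fintype W] (e : κ ↪ ι) {b : W → Cfg (sub e d) → ℂ}
    {a : Cfg (sub e d) → ℂ} {η : ℝ} (hm : av b = a) (ha : nsq a ≤ 1)
    (hη : fro (av fun w => vecMulVec (b w - a) (star (b w - a))) ≤ η) :
    Appr (fun w => src e (b w)) (src e a) (1 + η) := by
  refine ⟨by rw [src_av, hm], norm_src_le e ha, by linarith [fro_nonneg _ |>.trans hη],
    fun Z => ?_⟩
  rw [add_sub_cancel_left]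
  refine le_trans (le_of_eq ?_) (mul_le_mul_of_nonneg_right hη (fro_nonneg _))
  refine (pow_left_inj₀ (fro_nonneg _) (mul_nonneg (fro_nonneg _) (fro_nonneg _))
    two_ne_zero).1 ?_
  have h1 : ∀ σ τ, (av fun w => (src e (b w) - src e a) * Z * (src e (b w) - src e a)ᴴ) σ τ =
      (av fun w => vecMulVec (b w - a) (star (b w - a))) (res e σ) (res e τ) *
        Z (off (rg e) σ) (off (rg e) τ) := by
    intro σ τ
    simp only [av_apply, ← src_sub, mul_srcH_apply, src_mul_apply, av_cmul, vecMulVec_apply,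
      Pi.star_apply]
    congr 1; funext w; ring
  rw [mul_pow, fro_sq_blocks e, fro_sq, fro_sq, sum_mul]
  refine sum_congr rfl fun u _ => ?_
  rw [sum_mul]
  refine sum_congr rfl fun u' _ => ?_
  simp only [fro_sq, mul_bs_apply, bsH_mul_apply, h1, res_symm, off_symm, norm_mul, mul_pow,
    mul_sum]

/-- partial trace over the registers of `e` -/
noncomputable def pt (e : κ ↪ ι) (ρ : Op d) : Matrix (Rest (rg e) d) (Rest (rg e) d) ℂ :=
  ∑ s, (bs (d := d) e s)ᴴ * ρ * bs (d := d) e s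

lemma pt_apply (e : κ ↪ ι) (ρ : Op d) (j j' : Rest (rg e) d) :
    pt e ρ j j' = ∑ s, ρ (gl e s j) (gl e s j') := by
  simp only [pt, Matrix.sum_apply, mul_bs_apply, bsH_mul_apply]

end Crest.Agent.N336.CL
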